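import Vale.Agent.P004F.Es.Tr

/-! # P014Y, block ES: the abstract part at a prime `p` -/

set_option autoImplicit false
set_option linter.all false

noncomputable section

namespace Vale.Agent.P014Y.Es

open Finset Vale.Agent.P004F.Es

variable {G E V R R' R'' W : Type} [Group G] [AddCommGroup E] [DistribMulAction G E] [CommRing R]
  [CommRing R'] [CommRing R''] [AddCommGroup V] [Module R V] [AddCommGroup W] {n p : ℕ}
  {C A F S : AddSubgroup E} {Γ H H' D : Subgroup G} {g h φ : G} {x y X : E} {U U' T : Finset G}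
  {ψ : G → R} {ψ' : G → R'} {ψ'' : G → R''} {ι : E → V} {r : G → V →ₗ[R] V}
  {d : ℕ} {e : E} {a a' : ℕ → ℤ}

theorem ad_nsmul {f : E → W} (h : Ad S f) (hx : x ∈ S) (k : ℕ) : f (k • x) = k • f x :=
  map_nsmul h.hom k ⟨x, hx⟩

theorem ex_ud (hp : p.Prime) (hd : ∀ y : E, ∃ w, p • w = y) (hF : ∀ y ∈ F, p • y = 0 → y = 0) :
    ∃ C, F ≤ C ∧ Ud p C := by
  obtain ⟨C, h1, h2⟩ := zorn_le_nonempty₀ {C : AddSubgroup E | ∀ y ∈ C, p • y = 0 → y = 0}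
    (fun c hc ch y hy => ⟨sSup c, fun x hx => by
      obtain ⟨s, hs, k⟩ := (AddSubgroup.mem_sSup_of_directedOn ⟨y, hy⟩ ch.directedOn).1 hx
      exact hc hs x k, fun z hz => le_sSup hz⟩) F hF
  refine ⟨C, h1, h2.prop, fun y hy => ?_⟩
  obtain ⟨Q, rfl⟩ := hd y
  by_contra! k
  refine k Q (h2.le_of_ge (y := C ⊔ AddSubgroup.zmultiples Q) (fun x hx e => ?_) le_sup_left
    (AddSubgroup.mem_sup_right (AddSubgroup.mem_zmultiples Q))) rfl
  obtain ⟨c, hc, _, ⟨m, rfl⟩, rfl⟩ := AddSubgroup.mem_sup.1 hx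
  by_cases d : (p : ℤ) ∣ m
  · obtain ⟨a, rfl⟩ := d
    exact h2.prop _ (add_mem hc (by
      simp only [mul_comm _ a, mul_smul, natCast_zsmul]; exact zsmul_mem hy a)) e
  · obtain ⟨u, v, b⟩ := (Nat.prime_iff_prime_int.1 hp).irreducible.coprime_iff_not_dvd.2 d
    refine absurd ?_ (k _ (sub_mem (zsmul_mem hy u) (zsmul_mem hc v)))
    linear_combination (norm := module) b • (p • Q) - v • e

theorem unit_of (hp : p.Prime) {j m : ℕ} (hn : ((p ^ j : ℕ) : R) = 0) (hm : ¬ p ∣ m) :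
    IsUnit (m : R) := by
  obtain ⟨a, b, e⟩ := Nat.isCoprime_iff_coprime.2
    ((hp.coprime_iff_not_dvd.2 hm).symm.pow_right j)
  have := congrArg (Int.cast : ℤ → R) e
  rw [Int.cast_add, Int.cast_mul, Int.cast_mul, Int.cast_natCast, Int.cast_natCast, hn, mul_zero,
    add_zero, Int.cast_one] at this
  exact IsUnit.of_mul_eq_one_right _ this

theorem tf_pow (tf : ∀ y ∈ F, p • y = 0 → y = 0) (hy : y ∈ F) {k : ℕ} (e : p ^ k • y = 0) :
    y = 0 := by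
  induction k with
  | zero => simpa using e
  | succ k ih => exact ih (tf _ (nsmul_mem hy _) (by rwa [← mul_nsmul', ← pow_succ']))

/-- the residue of the twisted sum -/
theorem theta [NeZero p] (f : Fr Γ H U ψ) (i : Iv n Γ H A X) (hA : A ≤ F) (he : Fe n F φ d e) (hφ : φ ∈ Γ)
    (hn : (n : R) = 0) {c : G → ℕ → ℤ} (hc : ∀ u ∈ Γ, Co n F φ d e (u • X) (c u)) (h2 : p ∣ n)
    {ζ : E → W} (hζ : Ad F ζ) (h0 : ∀ y ∈ F, p • ζ y = 0) {lam : R →+ ZMod p}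
    (hl : ∀ s, lam (s * ∑ u ∈ U, ψ u * c u 0) = 0) :
    ∑ u ∈ U, (lam (ψ u)).val • ζ (u • X) = 0 := by
  have : ∀ u ∈ U, (lam (ψ u)).val • ζ (u • X) =
      ∑ j ∈ range d, ((lam (ψ u)).val * c u j : ℤ) • ζ (φ ^ j • e) := fun u hu => by
    obtain ⟨w, hw, e1⟩ := hc u (f.mem u hu)
    obtain ⟨m, rfl⟩ := h2
    rw [e1, hζ _ (sum_mem fun j _ => zsmul_mem (he.pw j) _) _ (nsmul_mem hw _), mul_nsmul',
      ad_nsmul hζ (nsmul_mem hw m), h0 _ (nsmul_mem hw m),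
      add_zero, hζ.sum _ fun j => zsmul_mem (he.pw j) _, smul_sum]
    exact sum_congr rfl fun j _ => by rw [hζ.zsmul (he.pw j), mul_smul, natCast_zsmul]
  rw [sum_congr rfl this, sum_comm]
  refine sum_eq_zero fun j hj => ?_
  obtain ⟨m, hm⟩ := (ZMod.intCast_zmod_eq_zero_iff_dvd
    (∑ u ∈ U, ((lam (ψ u)).val * c u j : ℤ)) p).1 (by
      rw [← hl (ψ (φ ^ j)), ← co_sum f i hA he hφ hn hc (mem_range.1 hj), map_sum, Int.cast_sum]
      refine sum_congr rfl fun u _ => ?_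
      rw [mul_comm (ψ u), ← zsmul_eq_mul, map_zsmul, zsmul_eq_mul, mul_comm]
      simp)
  rw [← sum_smul, hm, mul_comm, mul_smul, natCast_zsmul, h0 _ (he.pw j), smul_zero]

/-- a torsion point has no coordinates -/
theorem tor_abs (hp : p.Prime) {j : ℕ} (he : Fe (p ^ j) F φ d e) (hn : ((p ^ j : ℕ) : R) = 0)
    (tf : ∀ y ∈ F, p • y = 0 → y = 0) (hy : y ∈ F) (c : Co (p ^ j) F φ d e y a)
    (ht : IsOfFinAddOrder y) : (a 0 : R) = 0 := by
  obtain ⟨m, h0, e1⟩ := isOfFinAddOrder_iff_nsmul_eq_zero.1 ht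
  obtain ⟨k, m, hm, rfl⟩ := Nat.exists_eq_pow_mul_and_not_dvd h0.ne' p hp.one_lt.ne'
  have e2 := tf_pow tf (nsmul_mem hy m) (k := k) (by rwa [← mul_nsmul'])
  have := c.zsmul m
  rw [natCast_zsmul, e2] at this
  simpa [(unit_of hp hn hm).mul_right_eq_zero] using he.uniq hn this Co.zero he.pos

/-- the value is divisible by the Euler factor -/
theorem dv_abs (f : Fr Γ H U ψ) (i : Iv n Γ H A X) (he : Fe n F φ d e) (hφ : φ ∈ Γ)
    (hn : (n : R) = 0) (tf : ∀ y ∈ F, p • y = 0 → y = 0)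
    (ex : ∀ y ∈ F, ∀ v ∈ F, φ ^ d • y = y + n • v → ∃ a, Co n F φ d e y a)
    (hd : ∀ u ∈ Γ, u⁻¹ * φ ^ d * u ∈ H) {N q a b : ℤ}
    (sp : ∀ y ∈ A, ∃ w, (∃ k : ℕ, p ^ k • w = 0) ∧ N • y - w ∈ F) {X' : E} {c : G → ℕ → ℤ}
    (hc : ∀ u ∈ Γ, Co n F φ d e (u • X') (c u)) (hF : ∀ u ∈ Γ, u • X' ∈ F)
    (hX : ∀ u ∈ Γ, u • X' = q • u • X - a • φ • u • X + b • φ • φ • u • X) :
    q * ψ φ ^ 2 - a * ψ φ + b ∣ ψ φ ^ 2 * (N * ∑ u ∈ U, ψ u * c u 0) := by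
  choose! w hw hw' using sp
  let P : AddSubgroup E :=
    { carrier := {w | ∃ k : ℕ, p ^ k • w = 0}
      add_mem' := fun ⟨k, a⟩ ⟨l, b⟩ => ⟨k + l, by
        rw [smul_add, pow_add, mul_nsmul, a, mul_nsmul', b]; simp⟩
      zero_mem' := ⟨0, by simp⟩
      neg_mem' := fun ⟨k, a⟩ => ⟨k, by rw [smul_neg, a, neg_zero]⟩ }
  have hP : ∀ y ∈ A, w y ∈ P := hw
  have Pφ : ∀ y ∈ P, φ • y ∈ P := fun y ⟨k, a⟩ => ⟨k, by rw [smul_comm, a, smul_zero]⟩
  have uq : ∀ {x y}, x ∈ F → y ∈ F → x - y ∈ P → x = y := fun a b ⟨k, e⟩ =>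
    sub_eq_zero.1 (tf_pow tf (sub_mem a b) e)
  let π : E → E := fun y => N • y - w y
  have π1 : ∀ y ∈ A, ∀ v ∈ A, π (y + n • v) = π y + n • π v := fun y hy v hv =>
    uq (hw' _ (add_mem hy (nsmul_mem hv n))) (add_mem (hw' y hy) (nsmul_mem (hw' v hv) n)) (by
      convert sub_mem (add_mem (hP y hy) (nsmul_mem (hP v hv) n))
        (hP _ (add_mem hy (nsmul_mem hv n))) using 1
      simp only [π]
      module)
  have π2 : ∀ y ∈ A, π (φ • y) = φ • π y := fun y hy =>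
    uq (hw' _ (i.st φ hφ y hy)) (he.st _ (hw' y hy)) (by
      convert sub_mem (Pφ _ (hP y hy)) (hP _ (i.st φ hφ y hy)) using 1
      simp only [π, smul_sub, smul_comm φ N]
      abel)
  have π3 : ∀ k : ℕ, ∀ y ∈ A, π (φ ^ k • y) = φ ^ k • π y := fun k y hy => by
    induction k with
    | zero => simp
    | succ k ih => rw [pow_succ', mul_smul, π2 _ (i.st _ (pow_mem hφ k) y hy), ih, mul_smul]
  have : ∀ u ∈ Γ, ∃ a, Co n F φ d e (π (u • X)) a := fun u hu => by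
    obtain ⟨v, hv, e1⟩ := i.eq hu (hd u hu)
    refine ex _ (hw' _ (i.cj hu)) _ (hw' v hv) ?_
    rw [← π3 d _ (i.cj hu), ← π1 _ (i.cj hu) v hv, ← e1, ← mul_smul]
    congr 2
    group
  choose! c' hc' using this
  have s1 : ∑ u ∈ U, ψ φ * (ψ u * c' (φ * u) 0) = ∑ u ∈ U, ψ u * c' u 0 ∧
      ∑ u ∈ U, ψ φ ^ 2 * (ψ u * c' (φ * φ * u) 0) = ∑ u ∈ U, ψ u * c' u 0 := by
    have hp : ∀ u ∈ Γ, ∀ h ∈ H, ψ (u * h) * c' (u * h) 0 = ψ u * c' u 0 := fun u hu h hh => by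
      obtain ⟨v, hv, e1⟩ := i.eq hu hh
      have := hc' _ (mul_mem hu (f.le hh))
      rw [e1, π1 _ (i.cj hu) v hv] at this
      rw [f.psi hu hh, he.uniq hn this ((hc' u hu).add (hw' v hv)) he.pos]
    exact ⟨by
      rw [← f.sum (p := fun u => ψ u * c' u 0) hp hφ]
      exact sum_congr rfl fun u hu => by rw [f.mul _ hφ _ (f.mem u hu), mul_assoc], by
      rw [← f.sum (p := fun u => ψ u * c' u 0) hp (mul_mem hφ hφ)]
      exact sum_congr rfl fun u hu => by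
        rw [f.mul _ (mul_mem hφ hφ) _ (f.mem u hu), f.mul _ hφ _ hφ, sq, mul_assoc (ψ φ * ψ φ)]⟩
  refine ⟨∑ u ∈ U, ψ u * c' u 0, ?_⟩
  have s2 : N * ∑ u ∈ U, ψ u * c u 0 = ∑ u ∈ U, (q * (ψ u * c' u 0) - a * (ψ u * c' (φ * u) 0) +
      b * (ψ u * c' (φ * φ * u) 0)) := by
    rw [mul_sum]
    refine sum_congr rfl fun u hu => ?_
    have hu := f.mem u hu
    have m := i.cj hu
    have m1 := he.st _ (hw' _ m)
    have c1 := (((hc' u hu).zsmul q).plus ((hc' _ (mul_mem hφ hu)).zsmul (-a))).plus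
      ((hc' _ (mul_mem (mul_mem hφ hφ) hu)).zsmul b)
    rw [mul_smul, mul_smul, mul_smul, π2 _ (i.st φ hφ _ m), π2 _ m, ← uq (zsmul_mem (hF u hu) N)
      (add_mem (add_mem (zsmul_mem (hw' _ m) q) (zsmul_mem m1 (-a))) (zsmul_mem (he.st _ m1) b))
      (by
        convert add_mem (add_mem (zsmul_mem (hP _ m) q) (zsmul_mem (Pφ _ (hP _ m)) (-a)))
          (zsmul_mem (Pφ _ (Pφ _ (hP _ m))) b) using 1
        nth_rewrite 1 [hX u hu]
        simp only [π, smul_sub φ, smul_comm φ N]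
        generalize φ • φ • w (u • X) = x4
        generalize φ • w (u • X) = x5
        generalize φ • φ • u • X = x1
        generalize φ • u • X = x2
        generalize u • X = x3
        module)] at c1
    have := he.uniq hn ((hc u hu).zsmul N) c1 he.pos
    simp only [Pi.add_apply, Pi.smul_apply, smul_eq_mul] at this
    push_cast at this
    linear_combination ψ u * this
  rw [s2, sum_add_distrib, sum_sub_distrib, ← mul_sum, ← mul_sum, ← mul_sum]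
  rw [← mul_sum, ← mul_sum] at s1
  linear_combination (-a * ψ φ) * s1.1 + b * s1.2

/-- one multiplier prime to `p` for finitely many points -/
theorem ex_core (hp : p.Prime) [H.Normal] (fr : Fr Γ H U ψ) {κ : Type} (Z : Finset κ) {z : κ → E}
    (hz : ∀ i ∈ Z, z i ∈ Fx E H) {c : ℕ} (sp : ∀ y ∈ Fx E H, ∃ (m k : ℕ) (w : E), ¬ p ∣ m ∧
      p ^ k • w = 0 ∧ (c * m) • y - w ∈ F) : ∃ (m : ℕ) (S : AddSubgroup E), ¬ p ∣ m ∧
      (∀ i ∈ Z, z i ∈ cor S Γ) ∧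
      ∀ y ∈ S, ∃ w, (∃ k : ℕ, p ^ k • w = 0) ∧ ((c * m : ℕ) : ℤ) • y - w ∈ F := by
  choose! m k w h1 h2 h3 using sp
  let N := ∏ x ∈ Z ×ˢ U, m (x.2 • z x.1)
  refine ⟨N,
    { carrier := {y | ∃ w, (∃ k : ℕ, p ^ k • w = 0) ∧ ((c * N : ℕ) : ℤ) • y - w ∈ F}
      add_mem' := fun ⟨w, ⟨k, a⟩, b⟩ ⟨v, ⟨l, a'⟩, b'⟩ => ⟨w + v, ⟨k + l, by
        rw [smul_add, pow_add, mul_nsmul, a, mul_nsmul', a']; simp⟩, by
        rw [smul_add, add_sub_add_comm]; exact add_mem b b'⟩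
      zero_mem' := ⟨0, ⟨0, by simp⟩, by simp⟩
      neg_mem' := fun ⟨w, ⟨k, a⟩, b⟩ => ⟨-w, ⟨k, by rw [smul_neg, a, neg_zero]⟩, by
        rw [smul_neg, neg_sub_neg, ← neg_sub]; exact neg_mem b⟩ },
    prod_induction _ (¬ p ∣ ·) (fun _ _ => hp.not_dvd_mul) hp.not_dvd_one fun x hx =>
      h1 _ (fx_smul _ (hz _ (mem_product.1 hx).1)), fun i hi g hg => ?_, fun y h => h⟩
  obtain ⟨u, ⟨a, b⟩, -⟩ := fr.rep g hg
  obtain ⟨t, e⟩ : m (u • z i) ∣ N := dvd_prod_of_mem _ (mk_mem_product hi a)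
  have f := fx_smul u (hz i hi)
  refine ⟨t • w (u • z i), ⟨k (u • z i), by rw [smul_comm, h2 _ f, smul_zero]⟩, ?_⟩
  rw [← hz i hi _ b, ← mul_smul, mul_inv_cancel_left, hz i hi _ b, e, natCast_zsmul, ← mul_assoc,
    mul_nsmul, ← smul_sub]
  exact nsmul_mem (h3 _ f) t

theorem val_abs {j k : ℕ} (he : Fe (p ^ k) F φ d e) (hk : k ≤ j)
    (c : Co (p ^ j) F φ d e y a) (hv : ∃ v ∈ F, p ^ k • v = y) : ((p ^ k : ℕ) : ℤ) ∣ a 0 := by
  obtain ⟨w, hw, e1⟩ := c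
  obtain ⟨v, hv, e2⟩ := hv
  exact he.ind a _ (sub_mem hv (nsmul_mem hw (p ^ (j - k)))) (by
    rw [nsmul_sub, e2, e1, ← mul_nsmul', ← pow_add, Nat.add_sub_cancel' hk, add_sub_cancel_right])
    0 he.pos

end Vale.Agent.P014Y.Es
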