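import Vale.Agent.P004F.Es.Red
import Vale.Agent.P014U.X4F.St
import Vale.Agent.P014U.X4M.TE.Tate

/-! # P014Y, block ES: reduction, coordinates, coefficients -/

set_option linter.all false

open scoped Classical

noncomputable section

namespace Vale.Agent.P014Y.Es

section

open Polynomial WeierstrassCurve.Affine Vale.Agent.P004H.H666 NumberField IsDedekindDomain
open Vale.Agent.P004M.TE Vale.Agent.P004F.Es.Rd
open Vale.Agent.P004K (Ip K1)

/-- **reduction at a good prime**, with its kernel -/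
theorem ex_rdn {A B : ℤ} {l : ℕ} [hl : Fact l.Prime]
    (hD : ¬ (l : ℤ) ∣ 2 * (4 * A ^ 3 + 27 * B ^ 2)) {P : Ideal (𝓞 Qb)} (hP : P.IsPrime)
    (h : (l : 𝓞 Qb) ∈ P) : ∃ (κ : Type) (_ : Field κ) (_ : IsAlgClosed κ) (_ : Algebra (ZMod l) κ)
      (rd : Pt A B →+ (Cv κ (A : ZMod l) (B : ZMod l)).Point),
      (∀ Q, K1 P Q → rd Q = 0) ∧ (∀ (n : ℕ) Q, ¬ l ∣ n → n • Q = 0 → rd Q = 0 → Q = 0) ∧
      (∀ g : GQ, (∀ x : 𝓞 Qb, g • x - x ∈ P) → ∀ Q, rd (ga g Q) = rd Q) ∧
      ∀ g : GQ, (∀ x : 𝓞 Qb, g • x - x ^ l ∈ P) → ∀ Q, rd (ga g Q) = Fb (rd Q) := by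
  obtain ⟨O, hO, hI, hg⟩ := ex_val hP hl.out.ne_zero h
  let κ := AlgebraicClosure (IsLocalRing.ResidueField O)
  let ρ : O →+* κ := (algebraMap _ κ).comp (IsLocalRing.residue O)
  let r : Qb → κ := fun z => if h : z ∈ O then ρ ⟨z, h⟩ else 0
  have hr : ∀ z (h : O.valuation z ≤ 1), r z = ρ ⟨z, (O.valuation_le_one_iff z).1 h⟩ :=
    fun z h => dif_pos ((O.valuation_le_one_iff z).1 h)
  have r0 : ∀ z, O.valuation z ≤ 1 → (r z = 0 ↔ O.valuation z < 1) := by
    intro z hz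
    rw [hr z hz, RingHom.comp_apply, map_eq_zero, IsLocalRing.residue_eq_zero_iff,
      ValuationSubring.valuation_lt_one_iff]
  have vi : ∀ n : ℤ, O.valuation (n : Qb) ≤ 1 := fun n =>
    (O.valuation_le_one_iff _).2 (intCast_mem O n)
  have ri : ∀ n : ℤ, r n = n := fun n => (hr _ (vi n)).trans (map_intCast ρ n)
  have hc : CharP κ l := (CharP.charP_iff_prime_eq_zero hl.out).2 (by
    have := (r0 _ hO.le).2 hO
    rwa [← Int.cast_natCast, ri, Int.cast_natCast] at this)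
  letI : Algebra (ZMod l) κ := ZMod.algebra κ l
  have eA : algebraMap ℚ Qb (A : ℚ) = A := map_intCast _ A
  have eB : algebraMap ℚ Qb (B : ℚ) = B := map_intCast _ B
  have hΔ : O.valuation (Cv Qb (A : ℚ) (B : ℚ)).Δ = 1 := by
    have e : (Cv Qb (A : ℚ) (B : ℚ)).Δ = ((-(2 ^ 3 * (2 * (4 * A ^ 3 + 27 * B ^ 2))) : ℤ) : Qb) := by
      simp only [WeierstrassCurve.Δ, WeierstrassCurve.b₂, WeierstrassCurve.b₄, WeierstrassCurve.b₆,
        WeierstrassCurve.b₈, eA, eB]
      push_cast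
      ring
    rw [e]
    refine le_antisymm (vi _) (not_lt.1 fun h1 => ?_)
    rw [← r0 _ (vi _), ri, CharP.intCast_eq_zero_iff κ l, dvd_neg] at h1
    have hp := Nat.prime_iff_prime_int.1 hl.out
    exact hD ((hp.dvd_or_dvd h1).elim (fun h => (hp.dvd_of_dvd_pow h).mul_right _) id)
  have v0 : O.valuation (0 : Qb) ≤ 1 := by simp
  have r00 : r 0 = 0 := (r0 0 v0).2 (by simp)
  have cf : P179W.CoeffIn (Cv Qb (A : ℚ) (B : ℚ)) {z | O.valuation z ≤ 1} :=
    ⟨v0, v0, v0, (congrArg _ eA).trans_le (vi A), (congrArg _ eB).trans_le (vi B)⟩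
  obtain ⟨hy, h3, -⟩ := P179W.ptRed_holds Qb _ O.valuation (Cv Qb (A : ℚ) (B : ℚ)) cf hΔ
  obtain ⟨-, hn, hadd⟩ := h3 κ r (Cv κ (A : ZMod l) (B : ZMod l))
    (by simpa using ri 1)
    (fun a b ha hb => by rw [hr a ha, hr b hb, hr _ (O.valuation.map_add_le ha hb), ← map_add]; rfl)
    (fun a b ha hb => by rw [hr a ha, hr b hb, hr _ (P179W.val_mul_le_one ha hb), ← map_mul]; rfl)
    r0 r00.symm r00.symm r00.symm
    ((map_intCast _ A).trans ((ri A).symm.trans (congrArg r eA.symm)))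
    ((map_intCast _ B).trans ((ri B).symm.trans (congrArg r eB.symm)))
  let rd : Pt A B →+ (Cv κ (A : ZMod l) (B : ZMod l)).Point := AddMonoidHom.mk' _ hadd
  have d1 : ∀ {x y} (h : (Cv Qb (A : ℚ) (B : ℚ)).Nonsingular x y) (hx : O.valuation x ≤ 1),
      rd (.some x y h) = .some (r x) (r y) (hn x y h.1 hx) :=
    fun h hx => (if_pos hx).trans (P179W.pt_of _)
  have d2 : ∀ {x y} (h : (Cv Qb (A : ℚ) (B : ℚ)).Nonsingular x y), ¬ O.valuation x ≤ 1 →
      rd (.some x y h) = 0 := fun h hx => if_neg hx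
  have rg : ∀ (g : GQ) (e : ℕ), e ≠ 0 → (∀ x : 𝓞 Qb, g • x - x ^ e ∈ P) → ∀ z,
      O.valuation z ≤ 1 → r (g z) = r z ^ e := by
    intro g e he h4 z hz
    obtain ⟨h5, h6⟩ := hg g e he h4 z
    have h7 := (r0 _ (h6 hz).le).2 (h6 hz)
    rw [hr _ (h6 hz).le] at h7
    rw [hr _ (h5.2 hz), hr _ hz, ← map_pow, ← sub_eq_zero, ← map_sub]
    exact h7
  refine ⟨κ, inferInstance, inferInstance, inferInstance, rd, fun Q h2 => ?_,
    fun n Q hn h2 h0 => ?_, fun g h4 Q => ?_, fun g h4 Q => ?_⟩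
  · rcases Q with _ | ⟨x, y, h'⟩
    · exact map_zero rd
    · exact d2 h' fun hx => h2 x y h' rfl (hI x hx)
  · have k : P179W.KerV O.valuation Q := by
      rcases Q with _ | ⟨x, y, h'⟩
      · trivial
      intro hx
      rw [d1 h' hx] at h0
      exact Point.some_ne_zero _ h0
    have vn : O.valuation (n : Qb) = 1 := by
      refine le_antisymm (by simpa using vi n) (not_lt.1 fun h1 => hn ?_)
      rw [← Int.cast_natCast, ← r0 _ (vi _), ri, Int.cast_natCast] at h1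
      exact (CharP.cast_eq_zero_iff κ l n).1 h1
    have e := P014T.Lc.nsmul_le cf k n
    rw [h2, P014T.Lc.zf_zero, zero_sub, Valuation.map_neg, map_mul, vn, one_mul, sq] at e
    refine P014T.Lc.zf_eq_zero cf k (by_contra fun z => ?_)
    exact absurd e (not_le.2 (mul_lt_of_lt_one_left (zero_lt_iff.2 ((_root_.map_ne_zero _).2 z))
      (P014T.Lc.zf_lt cf k)))
  · rcases Q with _ | ⟨x, y, h'⟩
    · exact congrArg rd (map_zero (ga g))
    have h5 : ∀ x : 𝓞 Qb, g • x - x ^ 1 ∈ P := by simpa using h4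
    rw [ga_some]
    by_cases hx : O.valuation x ≤ 1
    · rw [d1 h' hx, d1 _ ((hg g 1 one_ne_zero h5 x).1.2 hx)]
      simp only [rg g 1 one_ne_zero h5 x hx, rg g 1 one_ne_zero h5 y (hy x y h'.1 hx), pow_one]
    · rw [d2 h' hx, d2 _ fun h => hx ((hg g 1 one_ne_zero h5 x).1.1 h)]
  · rcases Q with _ | ⟨x, y, h'⟩
    · change rd (ga g 0) = Fb (rd 0)
      simp
    have h0 := hl.out.ne_zero
    rw [ga_some]
    by_cases hx : O.valuation x ≤ 1
    · rw [d1 h' hx, d1 _ ((hg g l h0 h4 x).1.2 hx), Fb, pa_some]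
      simp only [rg g l h0 h4 x hx, rg g l h0 h4 y (hy x y h'.1 hx),
        FiniteField.coe_frobeniusAlgHom, ZMod.card]
    · rw [d2 h' hx, d2 _ fun h => hx ((hg g l h0 h4 x).1.1 h), map_zero]

end

open NumberField Matrix PowerSeries Vale.Agent.P022 P027M.K
open Vale.Agent.P014U Vale.Agent.P014U.X4F Vale.Agent.P014U.X4F.Pat Vale.Agent.P014U.X4M.TE

variable [Pp]

theorem cj_two (j : ℕ) (x : ℤ_[pp]) : cj j (pp ^ j * x) = 0 :=
  Ideal.Quotient.eq_zero_iff_mem.2 (by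
    rw [map_mul, ← two_C]; exact Ideal.mul_mem_right _ _ (two_Im j))

/-- coordinates on the points of order `pp ^ j` -/
theorem coo0 {A B : ℤ} (hD : 4 * (A : ℚ) ^ 3 + 27 * (B : ℚ) ^ 2 ≠ 0) (j : ℕ) :
    ∃ ι : Pt A B → Fin 2 → Rj j,
    (∀ x y, pp ^ j • x = 0 → pp ^ j • y = 0 → ι (x + y) = ι x + ι y) ∧
    (∀ g x, pp ^ j • x = 0 → ι (ga g x) = (mt hD g).map (cj j) *ᵥ ι x) ∧
    (∀ v : Fin 2 → ℤ_[pp], ∃ x, pp ^ j • x = 0 ∧ ι x = fun i => cj j (v i)) ∧
    ∀ k ≤ j, ∀ x, pp ^ j • x = 0 → (∀ i, ι x i ∈ Ideal.span {(pp : Rj j) ^ k, mj j X}) →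
      pp ^ (j - k) • x = 0 := by
  have k : ∀ x : Pt A B, ∃ t : Tm A B, pp ^ j • x = 0 → TM.cp j t = x := fun x => by
    by_cases h : pp ^ j • x = 0
    · exact (TM.exists_cp (hdiv hD) h).imp fun _ h _ => h
    · exact ⟨0, fun h' => absurd h' h⟩
  choose T hT using k
  have key : ∀ t : Tm A B, (fun i => cj j ((bs hD).repr (T (TM.cp j t)) i)) =
      fun i => cj j ((bs hD).repr t i) := fun t => funext fun i => by
    obtain ⟨y, hy⟩ := (TM.cp_eq_zero_iff (x := T (TM.cp j t) - t) (r := j)).1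
      (by rw [map_sub, hT _ (TM.pow_smul_cp t j), sub_self])
    rw [← sub_eq_zero, ← map_sub, ← Finsupp.sub_apply, ← map_sub, hy, map_smul,
      Finsupp.smul_apply, smul_eq_mul]
    exact cj_two j _
  refine ⟨fun x i => cj j ((bs hD).repr (T x) i), fun x y hx hy => ?_, fun g x hx => ?_,
    fun v => ?_, fun k hk x hx h => ?_⟩
  · have := key (T x + T y)
    rw [map_add, hT x hx, hT y hy] at this
    exact this.trans (funext fun i => by simp)
  · have := key (rho _ _ g (T x))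
    rw [cp_rho, hT x hx] at this
    refine this.trans (funext fun i => ?_)
    have k := congrFun (LinearMap.toMatrix_mulVec_repr (bs hD) (bs hD) (rho _ _ g) (T x)) i
    rw [← k]
    exact RingHom.map_mulVec (cj j) _ _ i
  · refine ⟨TM.cp j ((bs hD).equivFun.symm v), TM.pow_smul_cp _ j, (key _).trans ?_⟩
    funext i
    rw [← Module.Basis.equivFun_apply, LinearEquiv.apply_symm_apply]
  · rcases j.eq_zero_or_pos with rfl | j0
    · simpa using hx
    have d : ∀ i, ∃ r, (bs hD).repr (T x) i = pp ^ k * r := fun i => by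
      obtain ⟨a, b, hab⟩ := Ideal.mem_span_pair.1 (h i)
      obtain ⟨a, rfl⟩ := Ideal.Quotient.mk_surjective a
      obtain ⟨b, rfl⟩ := Ideal.Quotient.mk_surjective b
      have m : a * (pp : Pat.La) ^ k + b * X - C ((bs hD).repr (T x) i) ∈ Im j := Ideal.Quotient.eq.1 (by
        rw [map_add, map_mul, map_mul, map_pow, map_natCast]; exact hab)
      have m2 := (pow_dvd_pow _ hk).trans (mem_Im.1 m 0 j0)
      rw [two_C, map_sub, map_add, coeff_mul_C, coeff_zero_mul_X, add_zero, coeff_zero_C] at m2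
      exact (dvd_sub_right (Dvd.intro_left _ rfl)).1 m2
    choose r hr using d
    have e1 : T x = (pp : ℤ_[pp]) ^ k • (bs hD).equivFun.symm r :=
      (bs hD).equivFun.injective (funext fun i => by
        rw [map_smul, LinearEquiv.apply_symm_apply, Module.Basis.equivFun_apply, hr]; rfl)
    rw [← hT x hx, e1, TM.cp_pow_smul, smul_smul, ← pow_add, Nat.sub_add_cancel hk,
      TM.pow_smul_cp]

/-- the coefficients modulo `pp` -/
theorem lam0 (j l i : ℕ) (hi : i ≤ l) (hl : l < j) : ∃ lam : Rj j →+ ZMod pp,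
    (∀ x ∈ Ideal.span {(pp : Rj j), mj j X ^ (l + 1)}, lam x = 0) ∧
    ∀ n : ℕ, lam (mj j (1 + X) ^ n) = n.choose i := by
  have two : PadicInt.toZMod (pp : ℤ_[pp]) = 0 := by rw [map_natCast, ZMod.natCast_self]
  let f : Pat.La →+ ZMod pp := (PadicInt.toZMod (p := pp)).toAddMonoidHom.comp (coeff i).toAddMonoidHom
  have f0 : ∀ x, f x = PadicInt.toZMod (coeff i x) := fun _ => rfl
  refine ⟨QuotientAddGroup.lift (Im j).toAddSubgroup f fun x hx => ?_, fun x hx => ?_, fun n => ?_⟩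
  · obtain ⟨y, hy⟩ := (dvd_pow_self _ (by omega)).trans (mem_Im.1 hx i (by omega))
    rw [AddMonoidHom.mem_ker, f0, hy, map_mul, two, zero_mul]
  · obtain ⟨a, b, rfl⟩ := Ideal.mem_span_pair.1 hx
    obtain ⟨a, rfl⟩ := Ideal.Quotient.mk_surjective a
    obtain ⟨b, rfl⟩ := Ideal.Quotient.mk_surjective b
    change f (a * C (pp : ℤ_[pp]) + b * X ^ (l + 1)) = 0
    rw [f0, map_add, coeff_mul_C, X_pow_dvd_iff.1 (Dvd.intro_left b rfl) i (by omega), add_zero,
      map_mul, two, mul_zero]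
  · rw [← map_pow]
    change f ((1 + X) ^ n) = _
    have := Polynomial.coeff_coe (R := ℤ_[pp]) ((1 + Polynomial.X) ^ n) i
    rw [Polynomial.coeff_one_add_X_pow] at this
    rw [f0, show coeff i ((1 + X : Pat.La) ^ n) = n.choose i by simpa using this, map_natCast]

end Vale.Agent.P014Y.Es
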