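import Vale.Agent.P014Y.F.St
import Vale.Agent.P014Y.F.Qx.Idx
import Vale.Agent.P014Y.F.Es.Gen
import Vale.Agent.P014Y.F.Es.Pre
import Vale.Agent.P004F.Es.Es
import Vale.Agent.P004F.Es.Tyq

/-! # P014Y, block ES: the local groups, the arithmetic Euler system -/

set_option linter.all false

open NumberField Matrix PowerSeries Finset
open scoped Classical Pointwise

noncomputable section

namespace Vale.Agent.P014Y.Es

open Vale.Agent.P022 Vale.Agent.P004K Vale.Agent.P014U Vale.Agent.P014Y.F Vale.Agent.P004F.Es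
open Vale.Agent.P027M.S (Inert)
open Vale.Agent.P022D.W (dec phi_mem dec_gen conj_inP)
open Vale.Agent.P022.H443 (inP)
open Vale.Agent.P022E.GW (Ov Fb)
open P004M.TE (Pt ga ga_mul ga_one ev_ga)
open P004F.Qx (zf Fk Ur dep op gE)
open F.Qx (fg fr)

variable [Pp]

section

variable {A B : ℤ} {P : Ideal (𝓞 Qb)} {κ p : ℕ} {φ g : GQ}

/-- the kernel of the reduction at a tame place -/
theorem ex_K1 (hD : 4 * A ^ 3 + 27 * B ^ 2 ≠ 0) (hP : Ov p P) (hp : p ≠ pp) :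
    ∃ S : AddSubgroup (Pt A B), (∀ y, y ∈ S ↔ K1 P y) ∧ Ud pp S ∧ ∀ g ∈ dec P, ∀ y ∈ S, g • y ∈ S := by
  obtain ⟨h0, h1, h2, h3, -⟩ := fg A B hD P hP.2.1 (ov_ne hP)
  have h4 : (pp : 𝓞 Qb) ∉ P := fun h => hp ((Nat.prime_dvd_prime_iff_eq hP.1 pp_prime).1 (by
    exact_mod_cast P004S.ov_dvd hP (a := pp) (by exact_mod_cast h)))
  exact ⟨.ofSub {y | K1 P y} ⟨0, h0⟩ fun x a y b => sub_eq_add_neg x y ▸ h1 x y a b, fun _ => Iff.rfl,
    ⟨fun y a e => (h3 h4 0 h0).unique ⟨a, e⟩ ⟨h0, nsmul_zero pp⟩, fun y a => (h3 h4 y a).exists⟩, h2⟩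

/-- the unramified points of the formal group above `pp` -/
structure L2 (P : Ideal (𝓞 Qb)) (κ : ℕ) (F : AddSubgroup (Pt A B)) (Z : AddSubgroup Qb) : Prop where
  mem : ∀ y, y ∈ F ↔ Fk P κ y ∧ Ur P y
  tf : ∀ y ∈ F, pp • y = 0 → y = 0
  st : ∀ g ∈ dec P, ∀ y ∈ F, g • y ∈ F
  z : ∀ a, a ∈ Z ↔ Zp P a
  ad : Ad F fun y => QuotientAddGroup.mk' Z (zf y / κ)
  two : ∀ y ∈ F, pp • QuotientAddGroup.mk' Z (zf y / κ) = 0

theorem ex_l2 (hD : 4 * A ^ 3 + 27 * B ^ 2 ≠ 0) (hP : Ov pp P) (h0 : κ ≠ 0) (h2 : pp ∣ κ) :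
    ∃ (F : AddSubgroup (Pt A B)) (Z : AddSubgroup Qb), L2 P κ F Z := by
  obtain ⟨a0, -, -, -, -, a⟩ := fg A B hD P hP.2.1 (ov_ne hP)
  obtain ⟨a1, a2, a3⟩ := a κ h0
  let F : AddSubgroup (Pt A B) := .ofSub {y | Fk P κ y ∧ Ur P y}
    ⟨0, ⟨a0, 1, 0, (Ideal.ne_top_iff_one P).1 hP.2.1.ne_top, by simp [zf]⟩, fun g _ => map_zero _⟩
    fun x a y b => sub_eq_add_neg x y ▸ ⟨(a1 x y a.1 b.1).1, fun g h => by
      rw [map_sub, a.2 g h, b.2 g h]⟩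
  refine ⟨F, ZG hP.2.1, fun _ => Iff.rfl, fun y h => ((a3 h2 y).1 h.1).2,
    fun g hg y h => ⟨a2 g hg y h.1, fun s hs => ?_⟩, fun _ => Iff.rfl, fun x hx y hy => ?_,
    fun y ⟨⟨_, s, t, h1, e⟩, _⟩ => ?_⟩
  · have := h.2 _ (conj_inP (inv_mem hg) hs)
    rw [inv_inv, ga_eq, mul_smul, mul_smul, inv_smul_eq_iff] at this
    exact this
  · have := (a1 _ y (add_mem hx hy : x + y ∈ F).1 hy.1).2
    rw [add_sub_cancel_right] at this
    rw [← map_add, eq_comm, ← sub_eq_zero, ← map_sub]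
    rw [sub_sub_eq_add_sub] at this
    exact (QuotientAddGroup.eq_zero_iff _).2 this
  · rw [← map_nsmul]
    exact (QuotientAddGroup.eq_zero_iff _).2 ⟨s, pp * t, h1, P.mul_mem_right _ hP.2.2, by
      rw [nsmul_eq_mul, mul_left_comm, e]; simp⟩

variable {F : AddSubgroup (Pt A B)} {Z : AddSubgroup Qb}

theorem L2.gen (l : L2 P κ F Z) (hD : 4 * A ^ 3 + 27 * B ^ 2 ≠ 0) (hP : Ov pp P)
    (h0 : κ ≠ 0) (h2 : pp ∣ κ) (hφ : Fb pp P φ) {f : ℕ} (hf : 0 < f) : ∃ e, (∀ k, Fe (pp ^ k) F φ f e) ∧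
      ∀ k, ∀ y ∈ F, ∀ v ∈ F, φ ^ f • y = y + pp ^ k • v → ∃ a, Co (pp ^ k) F φ f e y a := by
  obtain ⟨e, a1, a2, a3, -, a4, a5⟩ := fr A B hD P hP.2.1 hP.2.2 κ h0 h2 φ hφ f hf
  refine ⟨e, fun k => ⟨hf, l.st φ (phi_mem hP.1 hP.2.1 hφ), (l.mem e).2 ⟨a1, a2⟩, a3,
    fun a w hw h i hi => by exact_mod_cast a4 k a w ((l.mem w).1 hw).1 h i hi⟩,
    fun k y hy v hv h => ?_⟩
  obtain ⟨a, w, b1, b2, b3, -⟩ := a5 k y v ((l.mem y).1 hy).1 ((l.mem y).1 hy).2 ((l.mem v).1 hv).1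
    (sub_eq_iff_eq_add'.2 h)
  exact ⟨a, w, (l.mem w).2 ⟨b1, b2⟩, b3⟩

variable {f : ℕ} {e : Pt A B}

theorem fe_cong (he : Fe (pp ^ 1) F φ f e) {i k : ℕ} (h : φ ^ i • e = φ ^ k • e) : i ≡ k [MOD f] := by
  by_contra c
  have := he.ind (Pi.single (i % f) 1 - Pi.single (k % f) 1) 0 (zero_mem _) (by
    simp [sub_smul, Pi.single_apply, Nat.mod_lt _ he.pos, he.md, h]) _ (Nat.mod_lt i he.pos)
  rw [Pi.sub_apply, Pi.single_eq_same, Pi.single_eq_of_ne c, sub_zero, pow_one] at this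
  exact pp_prime.not_dvd_one (by exact_mod_cast this)

theorem L2.dg (l : L2 P κ F Z) (hP : Ov pp P) (hφ : Fb pp P φ) {n : ℕ} (he : Fe n F φ f e)
    (W : Subgroup GQ) (hW : IsOpen (W : Set GQ)) (hg : g ∈ dec P) : ∃ s : ℕ,
    (∀ i : ℕ, g • φ ^ i • e = φ ^ s • φ ^ i • e) ∧ ∃ u ∈ W, ∃ t, Inert P t ∧ g = u * φ ^ s * t := by
  obtain ⟨W', h1, h2⟩ := ex_open (range f) fun i => φ ^ i • e
  obtain ⟨s, t, u, a, b, rfl⟩ := dec_gen hP.1 hP.2.1 hP.2.2 hφ hg (W ⊓ W') (hW.inter h1)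
  refine ⟨s, fun i => ?_, u, b.1, t, a, rfl⟩
  rw [mul_smul, ← ga_eq t, ((l.mem _).1 (he.pw i)).2 t a, mul_smul, ← mul_smul (φ ^ s), ← pow_add,
    ← he.md, h2 u b.2 _ (mem_range.2 (Nat.mod_lt _ he.pos))]

/-- division by `pp ^ k` in the formal group -/
theorem half (hD : 4 * A ^ 3 + 27 * B ^ 2 ≠ 0) (hP : Ov pp P) (h0 : κ ≠ 0) (h2 : pp ∣ κ) (k : ℕ)
    (y : Pt A B) (hy : Fk P (pp ^ k * κ) y) : ∃ w, Fk P κ w ∧ pp ^ k • w = y := by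
  induction k generalizing y with
  | zero => exact ⟨y, by simpa using hy, by simp⟩
  | succ k ih =>
    rw [pow_succ', mul_assoc] at hy
    obtain ⟨v, a1, a2, -⟩ := (((fg A B hD P hP.2.1 (ov_ne hP)).2.2.2.2.2 (pp ^ k * κ)
      (mul_ne_zero (pow_ne_zero _ pp_ne) h0)).2.2 (h2.mul_left _) y).2 hy
    obtain ⟨w, a3, rfl⟩ := ih v a1
    exact ⟨w, a3, by rw [← a2, pow_succ, mul_nsmul]⟩

theorem halfF (hD : 4 * A ^ 3 + 27 * B ^ 2 ≠ 0) (hP : Ov pp P) (h0 : κ ≠ 0) (h2 : pp ∣ κ)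
    (l : L2 P κ F Z) {k : ℕ} {y : Pt A B} (hF : y ∈ F) (hy : Fk P (pp ^ k * κ) y) :
    ∃ w ∈ F, pp ^ k • w = y := by
  obtain ⟨w, a, rfl⟩ := half hD hP h0 h2 k y hy
  refine ⟨w, (l.mem _).2 ⟨a, fun g hg => ?_⟩, rfl⟩
  obtain ⟨a0, -, -, -, -, f⟩ := fg A B hD P hP.2.1 (ov_ne hP)
  obtain ⟨a1, a2, a3⟩ := f κ h0
  let F' : AddSubgroup (Pt A B) := .ofSub {y | Fk P κ y}
    ⟨0, a0, 1, 0, (Ideal.ne_top_iff_one P).1 hP.2.1.ne_top, by simp [zf]⟩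
    fun x a y b => sub_eq_add_neg x y ▸ (a1 x y a b).1
  refine sub_eq_zero.1 (tf_pow (F := F') (k := k) (fun y h => ((a3 h2 y).1 h).2)
    (a1 _ _ (a2 g (P022D.W.inP_le_dec (P := P) hg) w a) a).1 ?_)
  rw [nsmul_sub, ← map_nsmul, ((l.mem _).1 hF).2 g hg, sub_self]

end

/-! ### the field -/

variable {e : Crv} {b : Fld e} {j c : ℕ} {Ψ : GQ → Rj j}

theorem S_prime {p : ℕ} (h : p ∈ e.S) : p.Prime := (e.ov p h).1

theorem hn (j : ℕ) : ((pp ^ j : ℕ) : Rj j) = 0 := by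
  have := Ideal.Quotient.eq_zero_iff_mem.2 (X4F.Pat.two_Im j)
  rwa [map_pow, map_natCast, ← Nat.cast_pow] at this

theorem cj_dvd {x : ℤ_[pp]} (h : (pp : ℤ_[pp]) ^ j ∣ x) : cj j x = 0 := h.elim fun y e => e ▸ cj_two j y

theorem c_sq (b : Fld e) : b.c * b.c = 1 := P004M.TE.conj_sq (hq e.par.disc) b.cc

theorem c_inv (b : Fld e) : b.c⁻¹ = b.c := inv_eq_of_mul_eq_one_right (c_sq b)

theorem c_out (b : Fld e) : b.c ∉ b.Γ := P004F.Ra.conj_out b.iq b.cc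

theorem tr_conj (b : Fld e) : (e.r b.c).trace = 0 := by
  have a : e.r b.c * e.r b.c = 1 := by rw [← map_mul, c_sq, map_one]
  have d : (e.r b.c).det = -1 := X4M.TE.det_conj _ b.cc
  have a0 := congrFun (congrFun a 0) 0
  have a1 := congrFun (congrFun a 1) 1
  simp only [mul_apply, Fin.sum_univ_two, one_apply_eq] at a0 a1
  rw [det_fin_two] at d
  rw [trace_fin_two]
  exact pow_eq_zero_iff two_ne_zero |>.1 (by linear_combination a0 + a1 + 2 * d)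

theorem kp_S (k : b.Kp j c Ψ) : k.l ∉ e.S := fun h =>
  k.out (mem_union_left _ (List.mem_toFinset.2 h))

theorem kp_two (k : b.Kp j c Ψ) : k.l ≠ 2 := fun h => kp_S k (h ▸ e.two)

theorem kp_eq (k : b.Kp j c Ψ) : k.φ = b.c * (b.c * k.φ) := by rw [← mul_assoc, c_sq, one_mul]

theorem kp_rc (k : b.Kp j c Ψ) : (e.r b.c).map (cj j) * (e.r k.φ).map (cj j) = 1 := by
  rw [← Matrix.map_mul, ← map_mul]
  ext i i'
  have := cj_dvd ((pow_dvd_pow _ j.le_succ).trans (k.tr i i'))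
  rw [Matrix.sub_apply, map_sub, sub_eq_zero] at this
  refine this.trans ?_
  simp only [one_apply]
  split
  exacts [map_one _, map_zero _]

theorem sq_hc (r1 : RC1) {g : GQ} (hg : g ∉ b.Γ) {c : ℕ} (hc : 0 < c) : g * g ∈ Hc b.j c := by
  have a := (r1 _ _ b.iq c hc).2.2.2.2.1 _ (c_out b) _ (H20.mul_mem' b.iq.two (c_out b) hg)
  rwa [c_inv, ← mul_assoc b.c b.c, c_sq, one_mul, mul_assoc, ← mul_assoc b.c b.c, c_sq,
    one_mul] at a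

section

variable (b)

theorem tq_bs {q : ℕ} (hq : q.Prime) (h2 : q ≠ 2) (hd : ¬ q ∣ b.δ') :
    ∃ ω u v, Tq.Bs ω b.θ b.δ' q u v := by
  obtain ⟨ω, h1, h3⟩ := P004K.Rc.iq0 b.j b.iq
  obtain ⟨u, v, e⟩ := h1 b.θ
  refine ⟨ω, u, v, hq, h2, hd, h1, fun x y k => ?_, b.th, e⟩
  have y0 : y = 0 := by
    have := congrArg (fun a => (JJ b.j a).im) k
    simpa [h3.ne'] using this
  exact ⟨by simpa [y0] using k, y0⟩

/-- the square root of `-δ'` in `Qb` -/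
def tq_th : 𝓞 Qb := RingOfIntegers.mapRingHom b.j b.θ

theorem tq_sq : tq_th b ^ 2 = -(b.δ' : 𝓞 Qb) := by
  rw [tq_th, ← map_pow, b.th, map_neg, map_natCast]

theorem tq_out {g : GQ} (hg : g ∉ b.Γ) : g • tq_th b = -tq_th b := by
  have s : (g • tq_th b) ^ 2 = tq_th b ^ 2 := by
    rw [← smul_pow', tq_sq, smul_neg, ← MulSemiringAction.toRingHom_apply, map_natCast]
  refine (sq_eq_sq_iff_eq_or_eq_neg.1 s).resolve_left fun k => hg ?_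
  have k1 : g (b.j b.θ) = b.j b.θ := congrArg (fun a : 𝓞 Qb => (a : Qb)) k
  obtain ⟨ω, h1, -⟩ := P004K.Rc.iq0 b.j b.iq
  obtain ⟨u, v, e⟩ := h1 b.θ
  have v0 : (v : Qb) ≠ 0 := by
    rw [Int.cast_ne_zero]
    rintro rfl
    simpa [e] using b.im
  have e1 : b.j b.θ = u + v * b.j ω := by
    simpa using congrArg (fun a : 𝓞 b.K => b.j (a : b.K)) e
  have k2 : g (b.j ω) = b.j ω := by
    rw [e1, map_add, map_mul, map_intCast, map_intCast] at k1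
    exact mul_left_cancel₀ v0 (add_left_cancel k1)
  have : (g : Qb →+* Qb).comp b.j = b.j :=
    IsLocalization.ringHom_ext (nonZeroDivisors (𝓞 b.K)) (RingHom.ext fun a => by
      obtain ⟨x, y, rfl⟩ := h1 a
      simpa using .inl k2)
  exact fun x => DFunLike.congr_fun this x

theorem tq_nsq {q : ℕ} {P : Ideal (𝓞 Qb)} {φ : GQ} (h2 : q ≠ 2) (hd : ¬ q ∣ b.δ') (ho : Ov q P)
    (hf : Fb q P φ) (hφ : φ ∉ b.Γ) : ¬ IsSquare (-b.δ' : ZMod q) := by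
  rintro ⟨z, e⟩
  have := Fact.mk ho.1
  have := ho.2.1
  obtain ⟨x, rfl⟩ := ZMod.intCast_surjective z
  let π := Ideal.Quotient.mk P
  have z : ∀ a, π a = 0 ↔ a ∈ P := fun a => Ideal.Quotient.eq_zero_iff_mem
  have zi : ∀ n : ℤ, (n : ZMod q) = 0 → (n : 𝓞 Qb ⧸ P) = 0 := fun n k => by
    obtain ⟨m, rfl⟩ := (ZMod.intCast_zmod_eq_zero_iff_dvd _ _).1 k
    rw [Int.cast_mul, Int.cast_natCast, ← map_natCast π, (z _).2 ho.2.2, zero_mul]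
  have t := congrArg π (tq_sq b)
  have f := (z _).2 (hf (tq_th b))
  rw [tq_out b hφ, map_sub, map_neg, map_pow] at f
  rw [map_pow, map_neg, map_natCast] at t
  have a1 := zi (x * x + b.δ') (by push_cast; linear_combination -e)
  have a2 := zi (x ^ q - x) (by push_cast; rw [ZMod.pow_card, sub_self])
  push_cast at a1 a2
  have a3 : π (tq_th b) ^ q = π (tq_th b) := by
    rcases sq_eq_sq_iff_eq_or_eq_neg.1 (show π (tq_th b) ^ 2 = x ^ 2 by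
      linear_combination t - a1) with k | k <;> rw [k]
    · exact sub_eq_zero.1 a2
    · rw [(ho.1.odd_of_ne_two h2).neg_pow, sub_eq_zero.1 a2]
  have a4 : (q : ℤ) ∣ 2 ^ 2 * b.δ' := P004S.ov_dvd ho ((z _).1 (by
    rw [map_intCast]
    push_cast
    linear_combination 4 * t + 2 * π (tq_th b) * (f + a3)))
  rcases ho.1.dvd_mul.1 (show q ∣ 2 ^ 2 * b.δ' by exact_mod_cast a4) with k | k
  · exact h2 ((Nat.prime_dvd_prime_iff_eq ho.1 Nat.prime_two).1 (ho.1.dvd_of_dvd_pow k))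
  · exact hd k

theorem tq_tr (k : b.Kp j c Ψ) : (pp : ℤ) ^ (j + 1) ∣ e.a k.l := by
  have a : (e.r k.φ).trace = e.a k.l :=
    (e.bad k.l k.kp.ov.1 (kp_S k)).2.2 k.φ ⟨k.P, k.kp.ov.2.1, k.kp.ov.2.2, k.kp.fb⟩
  have d : e.r k.φ = e.r b.c + e.r b.c * (e.r (b.c * k.φ) - 1) := by
    rw [mul_sub, mul_one, ← map_mul, ← kp_eq k, add_sub_cancel]
  refine (PadicInt.pow_p_dvd_int_iff (p := pp) _ _).1 ?_
  rw [← a, d, trace_add, tr_conj b, zero_add]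
  refine Finset.dvd_sum fun i _ => ?_
  rw [diag_apply, mul_apply]
  exact Finset.dvd_sum fun i' _ => (k.tr i' i).mul_left _

theorem tq_typ {q : ℕ} (hq : q.Prime) (h2 : q ≠ 2) (hd : ¬ q ∣ b.δ') : ∃ n, Typ b.K q n := by
  obtain ⟨ω, u, v, h⟩ := tq_bs b hq h2 hd
  by_cases k : IsSquare (-b.δ' : ZMod q)
  · exact ⟨q - 1, hq, .inr ⟨h.split k, Nat.sub_add_cancel hq.one_le⟩⟩
  · exact ⟨q + 1, hq, .inl ⟨h.inert k, rfl⟩⟩

theorem tq_inert {q : ℕ} {P : Ideal (𝓞 Qb)} {φ : GQ} (h2 : q ≠ 2) (hd : ¬ q ∣ b.δ') (ho : Ov q P)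
    (hf : Fb q P φ) (hφ : φ ∉ b.Γ) : (Ideal.span {(q : 𝓞 b.K)}).IsPrime :=
  let ⟨_, _, _, h⟩ := tq_bs b ho.1 h2 hd
  h.inert (tq_nsq b h2 hd ho hf hφ)

end

/-- reduction at a good prime -/
theorem red (e : Crv) {l : ℕ} {P : Ideal (𝓞 Qb)} (hS : l ∉ e.S) (o : Ov l P) :
    ∃ (W : Type) (_ : AddCommGroup W) (rd : Pt e.A e.B →+ W) (Fr : W →+ W),
    (∀ k y, pp ^ k • y = 0 → rd y = 0 → y = 0) ∧
    (∀ g, Inert P g → ∀ y, rd (ga g y) = rd y) ∧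
    (∀ g, Fb l P g → ∀ y, rd (ga g y) = Fr (rd y)) ∧
    (∀ q, Fr (Fr q) = e.a l • Fr q - (l : ℤ) • q) ∧
    ∀ (φ : GQ) (y y' : Pt e.A e.B), Fb l P φ →
      (∀ (Q : Ideal (𝓞 Qb)), Q.IsPrime → (l : 𝓞 Qb) ∈ Q → ∀ g : GQ,
        (∀ x : 𝓞 Qb, g • x - x ^ l ∈ Q) → K1 Q (y' - ga g y)) →
      ∀ u : GQ, rd (ga u y') = Fr (rd (ga u y)) := by
  obtain ⟨hl, hP, h⟩ := o
  haveI := Fact.mk hl
  obtain ⟨-, b2, b3⟩ := e.bad l hl hS
  have n : ∀ p ∈ e.S, ¬ (l : ℤ) ∣ (p : ℕ) := fun p m k => hS (by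
    rwa [(Nat.prime_dvd_prime_iff_eq hl (S_prime m)).1 (by exact_mod_cast k)])
  have pr := Nat.prime_iff_prime_int.1 hl
  have hg : ¬ (l : ℤ) ∣ 2 * (4 * e.A ^ 3 + 27 * e.B ^ 2) := fun k => (pr.dvd_or_dvd k).elim (n 2 e.two) b2
  have hg' : ¬ (l : ℤ) ∣ 2 * pp * (4 * e.A ^ 3 + 27 * e.B ^ 2) := fun k => (pr.dvd_or_dvd k).elim
    (fun k => (pr.dvd_or_dvd k).elim (n 2 e.two) (n pp e.pm)) b2
  obtain ⟨κ, _, _, _, rd, h0, h1, h2, h3⟩ := ex_rdn hg hP h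
  refine ⟨_, inferInstance, rd, P004M.TE.Fb, fun k y => h1 _ y fun d => n pp e.pm (by
    exact_mod_cast hl.dvd_of_dvd_pow d), h2, h3, fun q => ?_, fun φ y y' hφ hK u => ?_⟩
  · obtain ⟨g, k⟩ := P022.H20.exists_isFrob hl
    have e1 : e.a l = -P004M.TE.cs (e.A : ZMod l) (e.B : ZMod l) := by
      have := (b3 g k).symm.trans (X4M.TE.frob_mt (hq e.par.disc) hg' k).1
      exact_mod_cast this
    have := P004M.TE.frob_ch (P004M.TE.char_ne hg) (P004M.TE.disc_ne hg) q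
    rw [ZMod.card] at this
    rw [e1, neg_smul, ← sub_eq_zero, ← this]
    abel
  · have k := h0 _ (Rd.k1_ga u (hK (P.comap (MulSemiringAction.toRingHom GQ (𝓞 Qb) u))
      (Ideal.comap_isPrime _ _) (by rw [Ideal.mem_comap, map_natCast]; exact h) (u⁻¹ * φ * u)
      fun x => by simpa [Ideal.mem_comap, mul_smul, smul_sub] using hφ (u • x)))
    rw [map_sub, map_sub, sub_eq_zero, ← ga_mul, ← mul_assoc, ← mul_assoc, mul_inv_cancel, one_mul,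
      ga_mul, h3 φ hφ] at k
    exact k

/-! ### conductors -/

theorem kap_ne : e.S.prod ^ 2 ≠ 0 := pow_ne_zero _ (List.prod_ne_zero fun h => (S_prime h).ne_zero rfl)

theorem kap_two : pp ∣ e.S.prod ^ 2 := dvd_pow (List.dvd_prod e.pm) two_ne_zero

/-- the conductor -/
def cd (m : Finset (b.Kp j c Ψ)) : ℕ := c * ∏ k ∈ m, k.l

theorem cd_empty : cd (∅ : Finset (b.Kp j c Ψ)) = c := mul_one _

variable {m M : Finset (b.Kp j c Ψ)} {k : b.Kp j c Ψ}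

theorem cd_insert (hk : k ∉ m) : cd (insert k m) = cd m * k.l := by
  rw [cd, prod_insert hk, cd]; ring

variable (h : b.Chr j c Ψ)
include h

theorem chr_pos : 0 < c := Nat.pos_of_ne_zero h.sq.ne_zero

theorem cd_pos (m : Finset (b.Kp j c Ψ)) : 0 < cd m :=
  mul_pos (chr_pos h) (prod_pos fun k _ => k.kp.ov.1.pos)

theorem cd_dvd {q : ℕ} (hq : q.Prime) (d : q ∣ cd m) : q ∈ c.primeFactors ∨ ∃ k ∈ m, k.l = q := by
  refine (hq.dvd_mul.1 d).imp (fun d => Nat.mem_primeFactors.2 ⟨hq, d, h.sq.ne_zero⟩) fun d => ?_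
  obtain ⟨k, a, b⟩ := (hq.prime.dvd_finset_prod_iff _).1 d
  exact ⟨k, a, ((Nat.prime_dvd_prime_iff_eq hq k.kp.ov.1).1 b).symm⟩

theorem cd_cop (m : Finset (b.Kp j c Ψ)) : (cd m).Coprime (e.N * e.S.prod) := by
  refine Nat.coprime_of_dvd fun q hq d d' => ?_
  have a : q ∉ e.S := (cd_dvd h hq d).elim (fun a => (h.cop q a).1) fun ⟨k, _, a⟩ => a ▸ kp_S k
  rcases hq.dvd_mul.1 d' with d' | d'
  · exact (e.bad q hq a).1 d'
  · obtain ⟨p, hp, d'⟩ := (hq.prime.dvd_prod_iff).1 d'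
    exact a ((Nat.prime_dvd_prime_iff_eq hq (S_prime hp)).1 d' ▸ hp)

theorem cd_N (m : Finset (b.Kp j c Ψ)) : (cd m).Coprime e.N := (cd_cop h m).coprime_mul_right_right

theorem cd_two (m : Finset (b.Kp j c Ψ)) : ¬ pp ∣ cd m := fun d => one_lt.ne'
  (Nat.eq_one_of_dvd_coprimes (cd_cop h m) d ((List.dvd_prod e.pm).mul_left _))

theorem cd_nd (hk : k ∉ m) (hM : b.Inj (insert k m)) : ¬ k.l ∣ cd m := fun d => by
  rcases cd_dvd h k.kp.ov.1 d with a | ⟨k', a, a'⟩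
  · exact k.out (mem_union_right _ a)
  · exact hk (hM k' (mem_insert_of_mem a) k (mem_insert_self _ _) a' ▸ a)

omit h in
theorem inj_sub (hM : b.Inj M) (hm : m ⊆ M) : b.Inj m := fun k a k' a' => hM k (hm a) k' (hm a')

variable (r1 : RC1)

theorem ine_cd (hk : k ∉ m) (hM : b.Inj (insert k m)) :
    ∑ i ∈ range (k.l + 1), k.τ ^ i • b.Y (cd (insert k m)) = e.a k.l • b.Y (cd m) ∧
    ∀ P : Ideal (𝓞 Qb), P.IsPrime → (k.l : 𝓞 Qb) ∈ P → ∀ φ : GQ,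
      (∀ x : 𝓞 Qb, φ • x - x ^ k.l ∈ P) → K1 P (b.Y (cd (insert k m)) - ga φ (b.Y (cd m))) := by
  have hl := k.kp.ov.1
  rw [cd_insert hk]
  exact (b.ine _ _ _ _ (cd_pos h m) (cd_N h m) hl (fun d => (hl.dvd_mul.1 d).elim (cd_nd h hk hM)
    (e.bad _ hl (kp_S k)).1) (k.gen _ (cd_pos h m) (cd_nd h hk hM))
    (tq_inert b (kp_two k) (fun d => k.cop (d.mul_left _)) k.kp.ov k.kp.fb k.kp.out)).imp_right
    fun a => a fun d => k.cop (d.mul_right _)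

include r1

theorem hc_nrm (m : Finset (b.Kp j c Ψ)) : (Hc b.j (cd m)).Normal :=
  (r1 _ b.j b.iq _ (cd_pos h m)).2.2.1

theorem hc_le (hm : m ⊆ M) : Hc b.j (cd M) ≤ Hc b.j (cd m) := by
  have : cd M = cd m * ∏ k ∈ M \ m, k.l := by rw [cd, cd, ← prod_sdiff hm]; ring
  exact this ▸ (r1 _ b.j b.iq _ (cd_pos h m)).2.2.2.2.2 _ (prod_pos fun k _ => k.kp.ov.1.pos)

omit r1 in
theorem Y_fx (m : Finset (b.Kp j c Ψ)) : b.Y (cd m) ∈ Fx (Pt e.A e.B) (Hc b.j (cd m)) :=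
  b.fx _ (cd_pos h m) (cd_N h m)

/-- **the Euler system** -/
theorem sy (hM : b.Inj M) {f : AddMonoid.End (Pt e.A e.B)} (hf : f ∈ Op _ b.Γ)
    {S : AddSubgroup (Pt e.A e.B)} (hS : ∀ m ⊆ M, f (b.Y (cd m)) ∈ cor S b.Γ) :
    haveI := hc_nrm h r1 M
    Sy (pp ^ j) b.Γ (Hc b.j (cd M)) M (fun m => Hc b.j (cd m)) (·.τ) (·.l + 1) (fun k => e.a k.l)
      (cor S b.Γ) fun m => f (b.Y (cd m)) := by
  haveI := hc_nrm h r1 M
  have cm : Cm b.Γ (Hc b.j (cd M)) := (r1 _ b.j b.iq _ (cd_pos h M)).2.2.2.1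
  have tm : ∀ k : b.Kp j c Ψ, k.τ ∈ b.Γ := fun k => k.kp.ur k.kp.gn.1
  have gen := fun m k (hk : k ∉ m) (hm : insert k m ⊆ M) =>
    k.gen _ (cd_pos h m) (cd_nd h hk (inj_sub hM hm))
  refine ⟨cm, hc_nrm h r1, fun m => hc_le h r1, tm, fun m _ => ?_, fun m k hk hm => ?_,
    fun m k hk hm => ?_, fun m k hk hm => ?_, cor_st, hS, fun k => (cop_two_pow j).mul_dvd_of_dvd_of_dvd
      (k.kp.ov.1.odd_of_ne_two (kp_two k)).add_one.two_dvd ((pow_dvd_pow _ j.le_succ).trans k.kp.dv),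
    fun k => by exact_mod_cast (pow_dvd_pow _ j.le_succ).trans (tq_tr b k)⟩
  · haveI := hc_nrm h r1 m
    exact fx_op hf (Y_fx h m)
  · exact cd_insert hk ▸ ((gen m k hk hm).2.1 _).2 dvd_rfl
  · exact cd_insert hk ▸ (gen m k hk hm).2.2
  · rw [← map_zsmul, ← (ine_cd h hk (inj_sub hM hm)).1, map_sum]
    exact sum_congr rfl fun i _ => (cm.op1 hf (pow_mem (tm k) i)
      fun g hg => Y_fx h _ g (hc_le h r1 hm hg)).symm

omit h r1

theorem op_op {p : ℕ} (hp : p ∈ e.S) : op e.N e.a p (b.φ p) ∈ Op (Pt e.A e.B) b.Γ := by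
  have := b.ch.mem p hp
  refine add_mem (sub_mem (natCast_mem _ p) (zsmul_mem (ge_op this) _)) ?_
  split
  exacts [zero_mem _, ge_op (mul_mem this this)]

theorem ops_op {L : List ℕ} (hL : ∀ p ∈ L, p ∈ e.S) :
    ∀ f ∈ L.map fun p => op e.N e.a p (b.φ p), f ∈ Op (Pt e.A e.B) b.Γ := fun f hf => by
  obtain ⟨p, hp, rfl⟩ := List.mem_map.1 hf
  exact op_op (hL p hp)

/-- the depletion away from `pp` -/
def dp1 (b : Fld e) : AddMonoid.End (Pt e.A e.B) :=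
  (e.w * e.S.prod) • ((e.S.erase pp).map fun p => op e.N e.a p (b.φ p)).prod

theorem dep_op : dep e.N e.w e.a e.S b.φ ∈ Op (Pt e.A e.B) b.Γ :=
  nsmul_mem (Subring.list_prod_mem _ (ops_op fun _ h => h)) _

theorem dp1_op : dp1 b ∈ Op (Pt e.A e.B) b.Γ :=
  nsmul_mem (Subring.list_prod_mem _ (ops_op fun _ h => List.mem_of_mem_erase h)) _

theorem dep_eq {N : Subgroup GQ} [N.Normal] (cm : Cm b.Γ N) {y : Pt e.A e.B} (hy : y ∈ Fx _ N) :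
    dep e.N e.w e.a e.S b.φ y = op e.N e.a pp (b.φ pp) (dp1 b y) := by
  have := cm.perm ((List.perm_cons_erase e.pm).map fun p => op e.N e.a p (b.φ p))
    (ops_op fun _ h => h) hy
  exact (congrArg ((e.w * e.S.prod) • ·) this).trans (map_nsmul (op e.N e.a pp (b.φ pp)) _ _).symm

theorem op_eq (p : ℕ) (φ : GQ) (y : Pt e.A e.B) : op e.N e.a p φ y =
    (p : ℤ) • y - e.a p • φ • y + (if p ∣ e.N then 0 else 1 : ℤ) • φ • φ • y := by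
  rw [natCast_zsmul, ← mul_smul]
  unfold op
  split
  · rw [zero_zsmul, ← AddMonoid.End.natCast_apply]; rfl
  · rw [one_zsmul, ← AddMonoid.End.natCast_apply]; rfl

end Vale.Agent.P014Y.Es
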