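import Vale.Agent.P014Y.F.Es.Loc

/-! # P014Y, block ES: the local cocycle above `pp`, the Kolyvagin classes -/

set_option linter.all false

open NumberField Matrix PowerSeries Finset
open scoped Classical Pointwise

noncomputable section

namespace Vale.Agent.P014Y.Es

open Vale.Agent.P022 Vale.Agent.P004K Vale.Agent.P014U Vale.Agent.P014Y.F Vale.Agent.P004F.Es
open Vale.Agent.P022K.G2 (In)
open Vale.Agent.P027M.S (Inert)
open Vale.Agent.P022D.W (dec phi_mem inP_le_dec)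
open Vale.Agent.P022E.GW (Ov Fb)
open P004M.TE (Pt ga)
open P004F.Pr (ac)
open P004F.Qx (zf Fk Ur dep op)

variable [Pp] {e : Crv} {b : Fld e} {j c : ℕ} {Ψ : GQ → Rj j} {g : GQ}
  {m M : Finset (b.Kp j c Ψ)} {k : b.Kp j c Ψ}

/-- the linear action -/
def rr (e : Crv) (j : ℕ) (g : GQ) : (Fin 2 → Rj j) →ₗ[Rj j] (Fin 2 → Rj j) :=
  mulVecLin ((e.r g).map (cj j))

theorem aa_vec (v : Fin 2 → Rj j) : b.aa j Ψ g *ᵥ v = Ψ g • rr e j g v := smul_mulVec _ _ _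

theorem ov2 (e : Crv) : Ov pp (e.P pp) := e.ov pp e.pm

theorem fb2 (b : Fld e) : Fb pp (e.P pp) (b.φ pp) := b.ch.frb pp e.pm

theorem ph_dec (b : Fld e) : b.φ pp ∈ dec (e.P pp) := phi_mem (ov2 e).1 (ov2 e).2.1 (fb2 b)

theorem ph_mem (b : Fld e) : b.φ pp ∈ b.Γ := b.ch.mem pp e.pm

section

variable (h : b.Chr j c Ψ)
include h

theorem psi_one : Ψ 1 = 1 := h.ker 1 (one_mem _)

theorem psi_pow (hg : g ∈ b.Γ) (i : ℕ) : Ψ (g ^ i) = Ψ g ^ i := by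
  induction i with
  | zero => rw [pow_zero, pow_zero, psi_one h]
  | succ i ih => rw [pow_succ, h.mul _ (pow_mem hg i) _ hg, ih, pow_succ]

/-- the kernel of the character -/
def Hk : Subgroup GQ where
  carrier := {g | g ∈ b.Γ ∧ Ψ g = 1}
  mul_mem' a a' := ⟨mul_mem a.1 a'.1, by rw [h.mul _ a.1 _ a'.1, a.2, a'.2, one_mul]⟩
  one_mem' := ⟨one_mem _, psi_one h⟩
  inv_mem' {g} a := ⟨inv_mem a.1, by
    rw [← psi_one h, ← inv_mul_cancel g, h.mul _ (inv_mem a.1) _ a.1, a.2, mul_one]⟩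

theorem hk_cj : ∀ u ∈ b.Γ, u⁻¹ * b.φ pp ^ pp ^ (2 * j) * u ∈ Hk h := fun u hu => by
  have a := pow_mem (ph_mem b) (pp ^ (2 * j))
  refine ⟨mul_mem (mul_mem (inv_mem hu) a) hu, ?_⟩
  rw [h.mul _ (mul_mem (inv_mem hu) a) _ hu, h.mul _ (inv_mem hu) _ a, psi_pow h (ph_mem b),
    h.ord _ (ph_mem b), mul_one, ← h.mul _ (inv_mem hu) _ hu, inv_mul_cancel, psi_one h]

theorem hc_hk : Hc b.j (cd (∅ : Finset (b.Kp j c Ψ))) ≤ Hk h := fun g hg =>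
  ⟨hg.1, h.ker g (by rwa [cd_empty] at hg)⟩

variable (r1 : RC1) (r2 : RC2)

include r2 in
theorem in_hc (m : Finset (b.Kp j c Ψ)) (hg : Inert (e.P pp) g) : g ∈ Hc b.j (cd m) :=
  P004F.Ra.unr_hc r2 b.iq (cd_pos h m) (ov2 e) (cd_two h m) (b.le pp e.pm (inP_le_dec hg)) hg

include r1

theorem ex_frm (M : Finset (b.Kp j c Ψ)) : ∃ U, Fr b.Γ (Hc b.j (cd M)) U Ψ :=
  haveI := P022K.G2.cpt
  haveI := Subgroup.quotient_finite_of_isOpen _ (r1 _ b.j b.iq _ (cd_pos h M)).2.1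
  ex_fr (fun g a => a.1) h.mul fun g a => (hc_hk h (hc_le h r1 (empty_subset M) a)).2

theorem ex_frk : (∃ U, Fr b.Γ (Hk h) U Ψ) ∧
    ∃ T, Fr (Hk h) (Hc b.j (cd (∅ : Finset (b.Kp j c Ψ)))) T fun _ => (1 : ℤ) :=
  haveI := P022K.G2.cpt
  have o := (r1 _ b.j b.iq _ (cd_pos h ∅)).2.1
  haveI := Subgroup.quotient_finite_of_isOpen _ o
  haveI := Subgroup.quotient_finite_of_isOpen _ (Subgroup.isOpen_mono (hc_hk h) o)
  ⟨ex_fr (fun g a => a.1) h.mul fun g a => a.2, ex_fr (hc_hk h) (fun _ _ _ _ => rfl) fun _ _ => rfl⟩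

/-! ### the place above `pp` -/

variable {F C : AddSubgroup (Pt e.A e.B)} {Z : AddSubgroup Qb} {e₀ : Pt e.A e.B}
  {ι : Pt e.A e.B → Fin 2 → Rj j} (l : L2 (e.P pp) (e.S.prod ^ 2) F Z)
  (he : ∀ k, Fe (pp ^ k) F (b.φ pp) (pp ^ (2 * j)) e₀)
include r2 l he

theorem psi_dec (hg : g ∈ dec (e.P pp)) : ∃ s : ℕ, Ψ g = Ψ (b.φ pp ^ s) ∧
    ∀ i : ℕ, g • b.φ pp ^ i • e₀ = b.φ pp ^ s • b.φ pp ^ i • e₀ := by
  obtain ⟨s, a, u, hu, t, ht, rfl⟩ := l.dg (ov2 e) (fb2 b) (he 0) _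
    (r1 _ b.j b.iq _ (cd_pos h ∅)).2.1 hg
  have a1 := hc_hk h hu
  have a2 := hc_hk h (in_hc h r2 ∅ ht)
  have a3 := pow_mem (ph_mem b) s
  exact ⟨s, by rw [h.mul _ (mul_mem a1.1 a3) _ a2.1, h.mul _ a1.1 _ a3, a1.2, a2.2, one_mul,
    mul_one], a⟩

omit h r1 r2 l he in
/-- the local cocycle depends only on the value of the character at the Frobenius element -/
def ee (b : Fld e) (C : AddSubgroup (Pt e.A e.B)) (ι : Pt e.A e.B → Fin 2 → Rj j) (e₀ : Pt e.A e.B)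
    (a : Rj j) (g : GQ) : Fin 2 → Rj j := ∑ i ∈ range (pp ^ (2 * j)),
  a ^ (Classical.epsilon (fun s : ℕ => g • e₀ = b.φ pp ^ s • e₀) + i) •
    bb C (pp ^ j) ι g (b.φ pp ^ i • e₀)

theorem ee_eq (hg : g ∈ dec (e.P pp)) : ee b C ι e₀ (Ψ (b.φ pp)) g =
    eps C (pp ^ j) ι Ψ (b.φ pp) (pp ^ (2 * j)) e₀ g := by
  obtain ⟨s, a1, a2⟩ := psi_dec h r1 r2 l he hg
  have a3 : g • e₀ = b.φ pp ^ s • e₀ := by simpa using a2 0
  have a4 := fe_cong (he 1) ((Classical.epsilon_spec (p := fun s : ℕ => g • e₀ = b.φ pp ^ s • e₀)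
    ⟨s, a3⟩).symm.trans a3)
  refine sum_congr rfl fun i _ => ?_
  rw [h.mul _ (b.le pp e.pm hg) _ (pow_mem (ph_mem b) i), a1, psi_pow h (ph_mem b),
    psi_pow h (ph_mem b), pow_add, pow_eq_pow_of_modEq a4 (h.ord _ (ph_mem b))]

variable (kd : Kd (pp ^ j) C ι (rr e j)) (hF : F ≤ C)
include kd hF

theorem ee_coc : ∀ g ∈ dec (e.P pp), ∀ g' ∈ dec (e.P pp), ee b C ι e₀ (Ψ (b.φ pp)) (g * g') =
    ee b C ι e₀ (Ψ (b.φ pp)) g + b.aa j Ψ g *ᵥ ee b C ι e₀ (Ψ (b.φ pp)) g' := fun g a g' a' => by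
  obtain ⟨U, f⟩ := (ex_frk h r1).1
  obtain ⟨s, a1, a3⟩ := psi_dec h r1 r2 l he a'
  rw [ee_eq h r1 r2 l he (mul_mem a a'), ee_eq h r1 r2 l he a, ee_eq h r1 r2 l he a', aa_vec]
  exact eps_mul kd f hF (he j) (ph_mem b) (by simpa using hk_cj h 1 (one_mem _))
    (b.le pp e.pm a) (l.st g a) (b.le pp e.pm a') a1 a3

omit h r1 r2 l in
theorem ee_lc (a : Rj j) : ∃ W : Subgroup GQ, IsOpen (W : Set GQ) ∧
    ∀ w ∈ W, w ∈ dec (e.P pp) → ee b C ι e₀ a w = 0 := by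
  obtain ⟨W, h1, h2⟩ := ex_open (range (pp ^ (2 * j))) fun i => dv C (pp ^ j) (b.φ pp ^ i • e₀)
  exact ⟨W, h1, fun w hw _ => sum_eq_zero fun i hi => by
    rw [kd.zero (hF ((he 0).pw i)) (h2 w hw i hi), smul_zero]⟩

theorem ee_free {N c₂ : ℕ} (hN : ¬ pp ∣ N) (idx : ∀ y : Pt e.A e.B, Ur (e.P pp) y →
      ga (b.φ pp ^ 1) y = y → Fk (e.P pp) (e.S.prod ^ 2) ((pp ^ c₂ * N) • y))
    (i3 : ∀ v : Fin 2 → ℤ_[pp], ∃ x, pp ^ j • x = 0 ∧ ι x = fun i => cj j (v i))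
    (i4 : ∀ k ≤ j, ∀ x, pp ^ j • x = 0 → (∀ i, ι x i ∈ Ideal.span {(pp : Rj j) ^ k, mj j X}) →
      pp ^ (j - k) • x = 0) (h1 : ∀ g ∈ b.Γ, Ψ g - 1 ∈ Ideal.span {mj j X}) {k : ℕ} (hk : k ≤ j)
    (s : ℤ_[pp]) (v : Fin 2 → ℤ_[pp]) (hs : ∀ g ∈ dec (e.P pp), ∀ i,
      cj j s * ee b C ι e₀ (Ψ (b.φ pp)) g i - cj j (((e.r g - 1) *ᵥ v) i) ∈
        Ideal.span {(pp : Rj j) ^ k, mj j X}) : (pp : ℤ_[pp]) ^ k ∣ (pp : ℤ_[pp]) ^ c₂ * s := by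
  obtain ⟨x, x1, x2⟩ := i3 v
  obtain ⟨z, hz⟩ := Ideal.mem_span_singleton.1 (PadicInt.appr_spec j s)
  have s1 : cj j s = (s.appr j : ℤ) := by
    rw [← sub_eq_zero, Int.cast_natCast, ← map_natCast (cj j), ← map_sub]
    exact cj_dvd ⟨z, hz⟩
  have := free_abs (ψ := Ψ) (N := pp ^ c₂ * N) (s := s.appr j) kd hF (m := pp ^ (j - k))
    (by rw [← pow_add, Nat.add_sub_cancel' hk]) (he k) (ph_dec b) l.st (σ := fun _ => 1)
    (fun _ _ => rfl) (fun _ => rfl) rfl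
    (fun g hg => (psi_dec h r1 r2 l he hg).imp fun s a => ⟨rfl, a.2⟩)
    (J := AddSubgroup.pi Set.univ fun _ => (Ideal.span {(pp : Rj j) ^ k, mj j X}).toAddSubgroup)
    (fun g hg v i _ => ?_) (fun x a a' => i4 k hk x a fun i => a' i trivial) x1 (fun g hg i _ => ?_)
    fun y hy => ?_
  · have a : (pp : ℤ) ^ k ∣ pp ^ c₂ * s.appr j := by
      refine (IsCoprime.pow_left (m := k) (Nat.isCoprime_iff_coprime.2
        (pp_prime.coprime_iff_not_dvd.2 hN))).dvd_of_dvd_mul_left ?_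
      push_cast at this
      rwa [mul_comm _ (N : ℤ), mul_assoc] at this
    have a' := map_dvd (Int.castRingHom ℤ_[pp]) a
    simp only [eq_intCast, Int.cast_pow, Int.cast_mul, Int.cast_natCast] at a'
    rw [sub_eq_iff_eq_add.1 hz, mul_add]
    exact dvd_add (((pow_dvd_pow _ hk).mul_right _).mul_left _) a'
  · have := Ideal.mul_mem_right (v i) _ (Ideal.span_mono
      (Set.subset_insert ((pp : Rj j) ^ k) _) (h1 g (b.le pp e.pm hg)))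
    have e1 : (Ψ g • v - (1 : ℤ) • v) i = (Ψ g - 1) * v i := by
      rw [one_smul, Pi.sub_apply, Pi.smul_apply, smul_eq_mul, sub_mul, one_mul]
    exact e1 ▸ this
  · convert hs g hg i using 1
    rw [ee_eq h r1 r2 l he hg, s1, RingHom.map_mulVec, x2, Matrix.map_sub _ (map_sub _),
      Matrix.map_one _ (map_zero _) (map_one _), sub_mulVec, one_mulVec, one_smul]
    simp only [Pi.sub_apply, Pi.smul_apply, smul_eq_mul, zsmul_eq_mul]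
    rfl
  · have u : Ur (e.P pp) y := fun g hg => (one_smul ℤ _).symm.trans (hy g (inP_le_dec hg))
    exact (l.mem _).2 ⟨idx y u (by rw [pow_one]; exact (one_smul ℤ _).symm.trans (hy _ (ph_dec b))),
      fun g hg => by rw [map_nsmul, u g hg]⟩

end

/-- the derived point -/
def XX (f : AddMonoid.End (Pt e.A e.B)) (m : Finset (b.Kp j c Ψ)) : Pt e.A e.B :=
  Dm _ (·.τ) (·.l + 1) m (f (b.Y (cd m)))

/-- the depletion -/
abbrev dp (b : Fld e) : AddMonoid.End (Pt e.A e.B) := dep e.N e.w e.a e.S b.φ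

/-- the class -/
def kk (C : AddSubgroup (Pt e.A e.B)) (ι : Pt e.A e.B → Fin 2 → Rj j) (U : Finset GQ)
    (m : Finset (b.Kp j c Ψ)) (g : GQ) : Fin 2 → Rj j :=
  if g ∈ b.Γ then zz C (pp ^ j) ι U Ψ (XX (dp b) m) g else 0

variable (h : b.Chr j c Ψ) (r1 : RC1) (r2 : RC2)
include h

include r2 in
theorem ur_fx {y : Pt e.A e.B} (hy : y ∈ Fx _ (Hc b.j (cd m))) : Ur (e.P pp) y :=
  fun g hg => hy g (in_hc h r2 m hg)

include r1

variable {F C S : AddSubgroup (Pt e.A e.B)} {ι : Pt e.A e.B → Fin 2 → Rj j} {U U' T : Finset GQ}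
  (hS : ∀ m : Finset (b.Kp j c Ψ), dp b (b.Y (cd m)) ∈ cor S b.Γ) (hF : S ≤ C)
  (kd : Kd (pp ^ j) C ι (rr e j))
  (fU : Fr b.Γ (Hc b.j (cd (∅ : Finset (b.Kp j c Ψ)))) U Ψ)
include hS hF kd fU

include r2 in
theorem kk_cc (hM : b.Inj M) : Cc b.Γ (b.T c ∪ M.image (·.l)) (b.aa j Ψ) (kk C ι U M) := by
  haveI := hc_nrm h r1 M
  have s := sy h r1 hM dep_op fun m _ => hS m
  have i := s.iv fU.le Subset.rfl
  have hA : cor S b.Γ ≤ C := cor_le.trans hF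
  refine ⟨fun g a g' a' => ?_, fun g a => if_neg a, ?_, fun g ⟨q, hq, P, hP, hi⟩ => ?_⟩
  · rw [kk, kk, kk, if_pos a, if_pos a', if_pos (mul_mem a a')]
    exact (zz_mul kd fU i hA a a').trans (congrArg _ (aa_vec _).symm)
  · obtain ⟨W, h1, h2⟩ := ex_open U fun u => dv C (pp ^ j) (u • XX (dp b) M)
    exact ⟨W, h1, fun w hw => ite_eq_right_iff.2 fun _ => zz_zero kd fU i hA (h2 w hw)⟩
  · have a : q ∉ e.S := fun a => hq (mem_union_left _ (mem_union_left _ (List.mem_toFinset.2 a)))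
    obtain ⟨W, _, rd, Fr, h1, h2, -⟩ := red e a hP
    refine ite_eq_right_iff.2 fun hg => s.unr kd fU hA (h1 j) Subset.rfl
      (P004F.Ra.unr_hc r2 b.iq (cd_pos h M) hP (fun d => ?_) hg hi) (h2 g hi)
    rcases cd_dvd h hP.1 d with d | d
    · exact hq (mem_union_left _ (mem_union_right _ d))
    · exact hq (mem_union_right _ (mem_image.2 d))

theorem kk_kf (hM : b.Inj M) (hk : k ∈ M) : kk C ι U M (k.φ ^ 2) = 0 := by
  haveI := hc_nrm h r1 M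
  have s := sy h r1 hM dep_op fun m _ => hS m
  obtain ⟨W, _, rd, Fr, h1, h2, h3, h4, -⟩ := red e (kp_S k) k.kp.ov
  refine ite_eq_right_iff.2 fun _ => s.trv kd fU (cor_le.trans hF) (h1 j) Subset.rfl hk
    (sq k.φ ▸ sq_hc r1 k.kp.out (cd_pos h M)) (fun Q hQ => ?_) (h2 _ k.kp.gn.1)
  obtain ⟨a, ha⟩ := s.da k
  obtain ⟨d, hd⟩ := (dvd_mul_left _ 2).trans (s.dd k)
  have a1 : (k.l + 1) • rd Q = 0 := by rw [hd, mul_nsmul, hQ, smul_zero]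
  rw [sq, mul_smul, ← ga_eq, h3 _ k.kp.fb, ← ga_eq, h3 _ k.kp.fb, h4, ha, mul_comm, mul_smul,
    natCast_zsmul, ← map_nsmul, hQ, map_zero, smul_zero, natCast_zsmul, zero_sub,
    neg_eq_iff_add_eq_zero, ← succ_nsmul, a1]

theorem kk_rel (hk : k ∉ m) (hM : b.Inj (insert k m)) :
    (e.r b.c).map (cj j) *ᵥ kk C ι U (insert k m) k.τ = kk C ι U m (k.φ ^ 2) := by
  haveI := hc_nrm h r1 (insert k m)
  have s := sy h r1 hM dep_op fun m _ => hS m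
  obtain ⟨W, _, rd, Fr, h1, h2, h3, h4, h5⟩ := red e (kp_S k) k.kp.ov
  have a := fun m : Finset (b.Kp j c Ψ) => sq_hc r1 k.kp.out (cd_pos h m)
  rw [kk, kk, if_pos (s.tm k), sq, if_pos (show _ ∈ b.Γ from (a m).1), XX, s.fs kd fU (cor_le.trans hF) (h1 j) hk
    Subset.rfl (k.gen _ (cd_pos h ∅) (cd_nd h (notMem_empty k) (inj_sub hM (by simp)))).1
    (h2 _ k.kp.gn.1) (h3 _ k.kp.fb) (by simpa using h4) (a m) (a ∅)
    (s.cm.rel dep_op (q := Fr.comp rd) (Y_fx h _)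
      (fun g hg => Y_fx h m g (hc_le h r1 (subset_insert _ _) hg))
      fun u _ => h5 _ _ _ k.kp.fb (ine_cd h hk hM).2 u)]
  exact (mulVec_mulVec _ _ _).trans (by rw [kp_rc k, one_mulVec])

theorem kk_sp (hM : b.Inj M) {p : ℕ} (hp : p ∈ e.S) {K : AddSubgroup (Pt e.A e.B)} (h1 : S ≤ K)
    (h2 : Ud pp K) (h3 : ∀ g ∈ dec (e.P p), ∀ y ∈ K, g • y ∈ K) :
    ∃ μ, ∀ g ∈ dec (e.P p), kk C ι U M g = ac (b.aa j Ψ g - 1) μ := by
  haveI := hc_nrm h r1 M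
  obtain ⟨μ, a⟩ := zz_str kd fU ((sy h r1 hM dep_op fun m _ => hS m).iv fU.le Subset.rfl)
    (cor_le.trans hF) (h2.pow j) (cor_le.trans h1)
  refine ⟨μ, fun g hg => ?_⟩
  rw [kk, if_pos (b.le p hp hg), XX, a g (b.le p hp hg) (h3 g hg), ← aa_vec]
  exact ((sub_mulVec _ _ _).trans (by rw [one_mulVec])).symm

omit hF kd

variable {Z : AddSubgroup Qb} {e₀ : Pt e.A e.B} (l : L2 (e.P pp) (e.S.prod ^ 2) F Z)
  (he : ∀ k, Fe (pp ^ k) F (b.φ pp) (pp ^ (2 * j)) e₀) (h0 : S ≤ F)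
  (fU' : Fr b.Γ (Hk h) U' Ψ)
  (fT : Fr (Hk h) (Hc b.j (cd (∅ : Finset (b.Kp j c Ψ)))) T fun _ => (1 : ℤ))
  (ex : ∀ y ∈ F, ∀ v ∈ F, b.φ pp ^ pp ^ (2 * j) • y = y + pp ^ j • v →
    ∃ a, Co (pp ^ j) F (b.φ pp) (pp ^ (2 * j)) e₀ y a)
include l he h0 fU' fT

omit l he h0 in
theorem iv_tr (hM : b.Inj M) :
    Iv (pp ^ j) b.Γ (Hk h) (cor S b.Γ) (∑ v ∈ T, v • XX (dp b) M) :=
  haveI := hc_nrm h r1 M
  ((sy h r1 hM dep_op fun m _ => hS m).iv fU.le Subset.rfl).tr fT fU'.le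

include ex in
omit l he in
theorem ex_co (hM : b.Inj M) : ∃ c : GQ → ℕ → ℤ, ∀ u ∈ b.Γ,
    Co (pp ^ j) F (b.φ pp) (pp ^ (2 * j)) e₀ (u • ∑ v ∈ T, v • XX (dp b) M) (c u) := by
  have i := iv_tr h r1 hS fU fU' fT hM
  have : ∀ u ∈ b.Γ, ∃ a, Co (pp ^ j) F (b.φ pp) (pp ^ (2 * j)) e₀ (u • ∑ v ∈ T, v • XX (dp b) M) a :=
    fun u hu => by
      obtain ⟨w, hw, a⟩ := i.eq hu (hk_cj h u hu)
      refine ex _ (h0 (cor_le (i.cj hu))) w (h0 (cor_le hw)) ?_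
      rwa [mul_assoc, mul_inv_cancel_left, mul_smul] at a
  choose! c hc using this
  exact ⟨c, hc⟩

variable {cc : GQ → ℕ → ℤ} (hM : b.Inj M) (hc : ∀ u ∈ b.Γ,
  Co (pp ^ j) F (b.φ pp) (pp ^ (2 * j)) e₀ (u • ∑ v ∈ T, v • XX (dp b) M) (cc u))
include hM hc

include r2 kd in
theorem kk_sv (hF : F ≤ C) (hg : g ∈ dec (e.P pp)) (i : Fin 2) : kk C ι U M g i =
    ee b C ι e₀ (Ψ (b.φ pp)) g i • ∑ u ∈ U', Ψ u * cc u 0 := by
  haveI := hc_nrm h r1 M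
  have a := b.le pp e.pm hg
  rw [kk, if_pos a, XX, zz_tr kd fU fU' fT ((sy h r1 hM dep_op fun m _ => hS m).iv fU.le Subset.rfl)
    (cor_le.trans (h0.trans hF)) a, ee_eq h r1 r2 l he hg]
  exact (congrFun (zz_two fU' (iv_tr h r1 hS fU fU' fT hM) (cor_le.trans h0) (he j) (ph_mem b)
    (hn j) hc kd hF a (l.st g hg)) i).trans (mul_comm _ _)

include r2 ex in
theorem t_dv {c₁ : ℕ} (sp : ∀ y : Pt e.A e.B, Ur (e.P pp) y → ∃ (n k : ℕ) (w : Pt e.A e.B), ¬ pp ∣ n ∧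
      pp ^ k • w = 0 ∧ Ur (e.P pp) w ∧ Fk (e.P pp) (e.S.prod ^ 2) ((pp ^ c₁ * n) • y - w)) :
    pp * Ψ (b.φ pp) ^ 2 - e.a pp * Ψ (b.φ pp) + (if pp ∣ e.N then 0 else 1) ∣
      (pp : Rj j) ^ c₁ * ∑ u ∈ U', Ψ u * cc u 0 := by
  haveI := hc_nrm h r1 M
  obtain ⟨V, fV⟩ := ex_frm h r1 M
  have y1 : ∀ m ⊆ M, b.Y (cd m) ∈ Fx _ (Hc b.j (cd M)) :=
    fun m a g hg => Y_fx h m g (hc_le h r1 a hg)
  obtain ⟨n, S₁, h1, h2, h3⟩ := ex_core pp_prime (F := F) (c := pp ^ c₁) fV M.powerset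
    (z := fun m => dp1 b (b.Y (cd m))) (fun m a => fx_op dp1_op (y1 m (mem_powerset.1 a)))
    fun y hy => by
      have u := ur_fx h r2 hy
      obtain ⟨n, k, w, a1, a2, a3, a4⟩ := sp y u
      exact ⟨n, k, w, a1, a2, (l.mem _).2 ⟨a4, fun g hg => by
        rw [map_sub, map_nsmul, u g hg, a3 g hg]⟩⟩
  have s := sy h r1 hM dp1_op fun m a => h2 m (mem_powerset.2 a)
  have x1 : XX (dp1 b) M ∈ Fx _ (Hc b.j (cd M)) := fx_op (s.op M) (s.fxN Subset.rfl)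
  have x2 : XX (dp b) M = op e.N e.a pp (b.φ pp) (XX (dp1 b) M) := by
    rw [XX, dep_eq s.cm (y1 M Subset.rfl)]
    exact s.cm.op (s.op M) (op_op e.pm) (s.fxN Subset.rfl)
  have := dv_abs (X := ∑ v ∈ T, v • XX (dp1 b) M) fU' ((s.iv fU.le Subset.rfl).tr fT fU'.le) (he j) (ph_mem b) (hn j) l.tf ex
    (hk_cj h) (fun y hy => h3 y (cor_le hy)) hc (q := pp) (a := e.a pp)
    (b := if pp ∣ e.N then 0 else 1)
    (fun u hu => h0 (cor_le ((iv_tr h r1 hS fU fU' fT hM).cj hu))) fun u hu => by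
      rw [← op_eq, s.cm.op1 (op_op e.pm) hu (sum_mem fun v _ => fx_smul v x1), map_sum, x2]
      exact congrArg _ (sum_congr rfl fun v hv =>
        (s.cm.op1 (op_op e.pm) (fU'.le (fT.mem v hv)) x1).symm)
  have u : IsUnit (Ψ (b.φ pp)) := .of_pow_eq_one (h.ord _ (ph_mem b)) (pow_ne_zero _ pp_ne)
  rw [(u.pow 2).dvd_mul_left] at this
  push_cast at this
  rwa [mul_right_comm, (unit_of pp_prime (hn j) h1).dvd_mul_right] at this

omit hM hc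

variable (hc' : ∀ u ∈ b.Γ, Co (pp ^ j) F (b.φ pp) (pp ^ (2 * j)) e₀
  (u • ∑ v ∈ T, v • XX (dp b) (∅ : Finset (b.Kp j c Ψ))) (cc u))

omit h r1 hS fU l he h0 fU' fT in
theorem XX_empty : XX (dp b) (∅ : Finset (b.Kp j c Ψ)) = dp b (b.Y c) := by
  rw [XX, Dm_empty, cd_empty]

omit r1 hS l he h0 fU' fT h in
theorem tv : b.Tv c U := ⟨fU.mem, by have := fU.rep; rwa [cd_empty] at this⟩

omit hS fU l he h0 fU' fT in
theorem XX_fx : ∀ u : GQ, ∀ g ∈ Hc b.j (cd (∅ : Finset (b.Kp j c Ψ))),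
    (u * g) • XX (dp b) (∅ : Finset (b.Kp j c Ψ)) = u • XX (dp b) (∅ : Finset (b.Kp j c Ψ)) :=
  fun u g hg => by
    haveI := hc_nrm h r1 ∅
    rw [mul_smul, XX, Dm_empty, fx_op dep_op (Y_fx h ∅) g hg]

include hc'

theorem t_an (χ : GQ → ℕ)
    (h1 : ∀ g ∈ b.Γ, Ψ g - mj j (1 + X) ^ χ g ∈ Ideal.span {(pp : Rj j)}) {n : ℕ} (hl : n < j)
    (an : b.An e.S c χ n) :
    ∑ u ∈ U', Ψ u * cc u 0 ∉ Ideal.span {(pp : Rj j), mj j X ^ (n + 1)} := fun ht => by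
  haveI := hc_nrm h r1 ∅
  have hM : b.Inj (∅ : Finset (b.Kp j c Ψ)) := fun _ a => absurd a (notMem_empty _)
  obtain ⟨i, hi, a⟩ := an U (tv fU)
  obtain ⟨la, l1, l2⟩ := lam0 j n i hi hl
  have i0 := (sy h r1 hM dep_op fun m _ => hS m).iv fU.le Subset.rfl
  have a1 := (tr_sum (X := XX (dp b) (∅ : Finset (b.Kp j c Ψ))) fU fU' fT
    (fun u hu => h0 (cor_le (i0.cj hu))) l.ad
    (fun u _ g hg => by rw [XX_fx h r1 u g hg]) (θ := fun u => (la (Ψ u)).val)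
    fun u hu g hg => by rw [fU'.psi hu hg]).trans (theta fU' (iv_tr h r1 hS fU fU' fT hM)
      (cor_le.trans h0) (he j) (ph_mem b) (hn j) hc' (dvd_pow_self pp (by omega)) l.ad l.two
      fun s => l1 _ (Ideal.mul_mem_left _ s ht))
  refine a ((l.z _).1 ((QuotientAddGroup.eq_zero_iff _).1 ?_))
  rw [← a1, ← QuotientAddGroup.mk'_apply, map_sum]
  refine sum_congr rfl fun u hu => ?_
  have a2 : la (Ψ u) = (χ u).choose i := by
    rw [← l2, ← sub_eq_zero, ← map_sub]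
    exact l1 _ (Ideal.span_mono (Set.singleton_subset_iff.2 (Set.mem_insert _ _))
      (h1 u (fU.mem u hu)))
  rw [a2, ZMod.val_natCast, ← nsmul_eq_mul, map_nsmul, ← XX_empty (Ψ := Ψ)]
  exact nsmul_eq_mod_nsmul _ (l.two _ (h0 (cor_le (i0.cj (fU.mem u hu)))))

theorem t_val (h1 : ∀ g ∈ b.Γ, Ψ g - 1 ∈ Ideal.span {mj j X}) {k : ℕ} (hk : k ≤ j)
    (hD : ∀ T, b.Tv c T → Fk (e.P pp) (pp ^ k * e.S.prod ^ 2) (b.hp T c)) :
    ∑ u ∈ U', Ψ u * cc u 0 ∈ Ideal.span {(pp : Rj j) ^ k, mj j X} := by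
  haveI := hc_nrm h r1 ∅
  have hM : b.Inj (∅ : Finset (b.Kp j c Ψ)) := fun _ a => absurd a (notMem_empty _)
  have i := iv_tr h r1 hS fU fU' fT hM
  have m := sum_mem fun u hu => h0 (cor_le (i.cj (fU'.mem u hu)))
  have e2 := Co.sum fun u hu => hc' u (fU'.mem u hu)
  have a1 := tr_sum (A := ⊤) (β := id) fU fU' fT (fun _ _ => trivial) (fun _ _ _ _ => rfl)
    (fun u _ g hg => XX_fx h r1 u g hg) (θ := fun _ => (1 : ℤ)) fun _ _ _ _ => rfl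
  simp only [one_smul, id] at a1
  rw [← a1, XX_empty] at m e2
  obtain ⟨a, ha⟩ := val_abs (he k) hk e2
    (halfF e.par.disc (ov2 e) kap_ne kap_two l m (hD U (tv fU)))
  have a2 := congrArg (Int.cast : ℤ → Rj j) ha
  rw [Finset.sum_apply, Int.cast_sum] at a2
  push_cast at a2
  obtain ⟨I, hI⟩ : ∃ I, I = Ideal.span {(pp : Rj j) ^ k, mj j X} := ⟨_, rfl⟩
  have i1 : (pp : Rj j) ^ k ∈ I := hI ▸ Ideal.subset_span (Set.mem_insert _ _)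
  have i2 : mj j X ∈ I := hI ▸ Ideal.subset_span (Set.mem_insert_of_mem _ rfl)
  rw [← hI, ← sub_add_cancel (∑ u ∈ U', Ψ u * cc u 0) (∑ u ∈ U', (cc u 0 : Rj j)),
    ← sum_sub_distrib, a2]
  refine add_mem (sum_mem fun u hu => ?_) (I.mul_mem_right _ i1)
  obtain ⟨x, hx⟩ := Ideal.mem_span_singleton'.1 (h1 u (fU'.mem u hu))
  rw [← sub_one_mul, ← hx]
  exact I.mul_mem_right _ (I.mul_mem_left _ i2)

omit h r1 hS fU l he h0 fU' fT hc'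

/-- **the Kolyvagin classes** -/
theorem es (spl : SPL) (r1 : RC1) (r2 : RC2) : ES := fun e b => by
  obtain ⟨F, Z, l⟩ := ex_l2 e.par.disc (ov2 e) (kap_ne (e := e)) kap_two
  obtain ⟨C, hC, ud⟩ := ex_ud pp_prime
    (X4M.TE.mul_surj two_ne_zero (hq e.par.disc) pp_ne) l.tf
  obtain ⟨N, N0, hN⟩ := Qx.idx _ _ e.par.disc _ _ (ov2 e) (fb2 b) _ 1 (kap_ne (e := e)) one_ne_zero
  obtain ⟨c₂, N, odd, rfl⟩ := Nat.exists_eq_pow_mul_and_not_dvd N0 pp one_lt.ne'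
  obtain ⟨c₁, sp⟩ := exists_imp_of_imp_exists fun h => spl e h _ (kap_ne (e := e))
  have σS : ∀ p ∈ e.σ, p ∈ e.S ∧ p ≠ pp := fun p hp =>
    ⟨List.mem_toFinset.1 (mem_filter.1 hp).1, (mem_filter.1 hp).2.1⟩
  choose! K K1 K2 K3 using fun p (hp : p ∈ e.σ) =>
    ex_K1 e.par.disc (e.ov p (σS p hp).1) (σS p hp).2
  refine ⟨c₁ + c₂, fun j hj => ?_⟩
  obtain ⟨ι, i1, i2, i3, i4⟩ := coo0 (hq e.par.disc) j
  obtain ⟨e₀, he, ex⟩ := l.gen e.par.disc (ov2 e) kap_ne kap_two (fb2 b)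
    (f := pp ^ (2 * j)) (pow_pos pp_pos _)
  have kd : Kd (pp ^ j) C ι (rr e j) := ⟨ud.pow j, fun x a y => i1 x y a, i2⟩
  refine ⟨ee b C ι e₀, fun c Ψ h => ?_⟩
  obtain ⟨U, fU⟩ := ex_frm h r1 ∅
  obtain ⟨⟨U', fU'⟩, T, fT⟩ := ex_frk h r1
  have h0 : F ⊓ ⨅ p ∈ e.σ, K p ≤ F := inf_le_left
  have hS : ∀ m : Finset (b.Kp j c Ψ), dp b (b.Y (cd m)) ∈ cor (F ⊓ ⨅ p ∈ e.σ, K p) b.Γ :=
    fun m g hg => by
      haveI := hc_nrm h r1 m
      have := b.qx _ (cd_pos h m) (cd_cop h m) g hg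
      exact ⟨(l.mem _).2 ⟨this pp e.pm, ur_fx h r2 (fx_smul g (fx_op dep_op (Y_fx h m)))⟩,
        AddSubgroup.mem_iInf.2 fun p => AddSubgroup.mem_iInf.2 fun hp =>
          (K1 p hp _).2 (this p (σS p hp).1).1⟩
  have hF := h0.trans hC
  choose! cc hc using fun M => ex_co h r1 hS fU h0 fU' fT (ex j) (M := M)
  choose μ hμ using fun M (p : e.σ) => exists_imp_of_imp_exists fun hM =>
    kk_sp h r1 hS hF kd fU (M := M) hM (σS p p.2).1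
      (inf_le_right.trans (biInf_le _ p.2)) (K2 p p.2) (K3 p p.2)
  have h1 : b.Inj (∅ : Finset (b.Kp j c Ψ)) := fun _ a => absurd a (notMem_empty _)
  refine ⟨kk C ι U, fun M => ∑ u ∈ U', Ψ u * cc M u 0, μ,
    ee_coc h r1 r2 l he kd hC, ee_lc he kd hC _, fun a k hk s v hs => ?_,
    fun M hM => ⟨kk_cc h r1 r2 hS hF kd fU hM,
      fun g => kk_sv h r1 r2 hS kd fU l he h0 fU' fT hM (hc M hM) hC, fun p => hμ M p hM⟩,
    fun M hM k => kk_kf h r1 hS hF kd fU hM, fun M k => kk_rel h r1 hS hF kd fU,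
    fun a M hM ψ hψ => ?_,
    fun χ a n => t_an h r1 hS fU l he h0 fU' fT (hc _ h1) χ a,
    fun a k => t_val h r1 hS fU l he h0 fU' fT (hc _ h1) a⟩
  · rw [pow_add, mul_assoc]
    exact (ee_free h r1 r2 l he kd hC odd hN i3 i4 a hk s v hs).mul_left _
  · rw [hψ, add_comm c₁, pow_add, mul_assoc]
    exact (t_dv h r1 r2 hS fU l he h0 fU' fT (ex j) hM (hc M hM) (sp a)).mul_left _

end Vale.Agent.P014Y.Es
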